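import Mathlib
import Crest.Agent.R52.FracInt
import Crest.Agent.R52.Prob

/-!
A coloured multi-level selector: the colours record the rank class of every point of a fragment.
-/

set_option autoImplicit false

namespace Crest.Agent.R55

open Finset Crest.Agent.R52

section Rank

variable {α : Type} [Fintype α]

/-- number of points of at least the same weight -/
noncomputable def rk (lam : α → ℝ) (x : α) : ℕ := (univ.filter (fun y => lam x ≤ lam y)).card

/-- dyadic rank class -/
noncomputable def kap (lam : α → ℝ) (x : α) : ℕ := Nat.clog 2 (rk lam x)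

lemma card_rk_le (lam : α → ℝ) (k : ℕ) : (univ.filter (fun x => rk lam x ≤ k)).card ≤ k := by
  by_cases h : (univ.filter (fun x => rk lam x ≤ k)).Nonempty
  · obtain ⟨x, hx, hmin⟩ := exists_min_image _ lam h
    have h1 : univ.filter (fun x => rk lam x ≤ k) ⊆ univ.filter (fun y => lam x ≤ lam y) := by
      intro y hy
      simp only [mem_filter, mem_univ, true_and]
      exact hmin y hy
    have h2 := card_le_card h1
    have h3 : rk lam x ≤ k := (mem_filter.mp hx).2
    unfold rk at h3
    omega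
  · rw [not_nonempty_iff_eq_empty] at h
    simp [h]

lemma card_kap_le (lam : α → ℝ) (κ : ℕ) :
    (univ.filter (fun x => kap lam x = κ)).card ≤ 2 ^ κ := by
  refine le_trans (card_le_card ?_) (card_rk_le lam (2 ^ κ))
  intro x hx
  simp only [mem_filter, mem_univ, true_and] at hx ⊢
  rw [← hx]
  exact Nat.le_pow_clog (by norm_num) _

lemma rk_comp (lam : α → ℝ) (e : α ≃ α) (x : α) : rk (fun y => lam (e y)) x = rk lam (e x) := by
  unfold rk
  apply card_bij (fun y _ => e y)
  · intro y hy
    simpa using hy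
  · intro a _ b _ h
    exact e.injective h
  · intro b hb
    refine ⟨e.symm b, ?_, by simp⟩
    simpa using hb

end Rank

section Sel

variable {α : Type} [Fintype α] [DecidableEq α] {s D : ℕ} {G : Type}

/-- feasibility with thresholds -/
def FeasC (lam : α → ℝ) (l : α → Fin (s + 1)) (θ : α → ℕ) (u : ℕ → ℕ) : Prop :=
  ∀ j < s, ∀ B : Finset α, B.card ≤ 2 ^ (j + 1) * u j →
    2 ^ (j + 1) * (∑ x ∈ univ.filter (fun x => j < (l x : ℕ) ∨ kap lam x < θ x), lam x) +
      ∑ x ∈ B, lam x ≤ 1

omit [DecidableEq α] in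
lemma FeasC.feas {lam : α → ℝ} (h0 : ∀ x, 0 ≤ lam x) {l : α → Fin (s + 1)} {θ : α → ℕ}
    {u : ℕ → ℕ} (h : FeasC lam l θ u) : Feas lam l u := by
  intro j hj B hB
  have h1 := h j hj B hB
  have h2 : ∑ x ∈ univ.filter (fun x => j < (l x : ℕ)), lam x ≤
      ∑ x ∈ univ.filter (fun x => j < (l x : ℕ) ∨ kap lam x < θ x), lam x := by
    apply sum_le_sum_of_subset_of_nonneg _ (fun x _ _ => h0 x)
    intro x hx
    simp only [mem_filter, mem_univ, true_and] at hx ⊢
    exact Or.inl hx
  have h3 : (0 : ℝ) ≤ 2 ^ (j + 1) := by positivity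
  nlinarith

lemma FeasC.raise {lam : α → ℝ} (h0 : ∀ x, 0 ≤ lam x) {l l' : α → Fin (s + 1)} {θ θ' : α → ℕ}
    {u u' : ℕ → ℕ} (x : α) (j0 : ℕ) (hf : FeasC lam l θ u) (hu : ∀ j, u' j ≤ u j)
    (hu0 : u' j0 + 1 ≤ u j0) (hy : ∀ y, y ≠ x → l' y = l y ∧ θ' y ≤ θ y)
    (hx : ∀ j < s, j ≠ j0 → (j < (l' x : ℕ) ∨ kap lam x < θ' x) →
      (j < (l x : ℕ) ∨ kap lam x < θ x))
    (hbad : kap lam x < θ x ∨ 2 ^ (j0 + 1) * u j0 ≤ rk lam x) : FeasC lam l' θ' u' := by
  intro j hj B hB
  have hpos : (0 : ℝ) ≤ 2 ^ (j + 1) := by positivity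
  have hother : ∀ y, y ≠ x → (j < (l' y : ℕ) ∨ kap lam y < θ' y) →
      (j < (l y : ℕ) ∨ kap lam y < θ y) := by
    intro y hyx h
    obtain ⟨h1, h2⟩ := hy y hyx
    rw [h1] at h
    omega
  by_cases hcase : j ≠ j0 ∨ kap lam x < θ x
  · have hsub : univ.filter (fun y => j < (l' y : ℕ) ∨ kap lam y < θ' y) ⊆
        univ.filter (fun y => j < (l y : ℕ) ∨ kap lam y < θ y) := by
      intro y hy'
      simp only [mem_filter, mem_univ, true_and] at hy' ⊢
      by_cases hyx : y = x
      · subst hyx
        rcases hcase with h | h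
        · exact hx j hj h hy'
        · exact Or.inr h
      · exact hother y hyx hy'
    have h1 := sum_le_sum_of_subset_of_nonneg hsub (fun y _ _ => h0 y)
    have h2 := hf j hj B (hB.trans (Nat.mul_le_mul_left _ (hu j)))
    nlinarith
  · push Not at hcase
    obtain ⟨rfl, hc⟩ := hcase
    have hrk : 2 ^ (j + 1) * u j ≤ rk lam x := by
      rcases hbad with h | h
      · omega
      · exact h
    have hsub : univ.filter (fun y => j < (l' y : ℕ) ∨ kap lam y < θ' y) ⊆
        insert x (univ.filter (fun y => j < (l y : ℕ) ∨ kap lam y < θ y)) := by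
      intro y hy'
      simp only [mem_filter, mem_univ, true_and, mem_insert] at hy' ⊢
      by_cases hyx : y = x
      · exact Or.inl hyx
      · exact Or.inr (hother y hyx hy')
    have h1 := sum_le_sum_of_subset_of_nonneg hsub (fun y _ _ => h0 y)
    have h1' : ∑ y ∈ insert x (univ.filter (fun y => j < (l y : ℕ) ∨ kap lam y < θ y)), lam y ≤
        lam x + ∑ y ∈ univ.filter (fun y => j < (l y : ℕ) ∨ kap lam y < θ y), lam y := by
      by_cases hxm : x ∈ univ.filter (fun y => j < (l y : ℕ) ∨ kap lam y < θ y)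
      · rw [insert_eq_of_mem hxm]
        linarith [h0 x]
      · rw [sum_insert hxm]
    set Y := univ.filter (fun y => lam x ≤ lam y) with hY
    have hmul : 2 ^ (j + 1) * u' j + 2 ^ (j + 1) ≤ 2 ^ (j + 1) * u j := by
      have := Nat.mul_le_mul_left (2 ^ (j + 1)) hu0
      rwa [mul_add, mul_one] at this
    have hYB : 2 ^ (j + 1) ≤ (Y \ B).card := by
      have h1 := le_card_sdiff B Y
      have h2 : rk lam x = Y.card := rfl
      omega
    obtain ⟨E, hEsub, hEcard⟩ := exists_subset_card_eq hYB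
    have hdisj : Disjoint B E := by
      rw [disjoint_right]
      intro y hy
      exact (mem_sdiff.mp (hEsub hy)).2
    have hBE : (B ∪ E).card ≤ 2 ^ (j + 1) * u j := by
      rw [card_union_of_disjoint hdisj, hEcard]
      omega
    have h3 := hf j hj (B ∪ E) hBE
    rw [sum_union hdisj] at h3
    have h4 : (2 : ℝ) ^ (j + 1) * lam x ≤ ∑ y ∈ E, lam y := by
      have := card_nsmul_le_sum E lam (lam x) (by
        intro y hy
        have := (mem_sdiff.mp (hEsub hy)).1
        simpa [hY] using this)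
      rw [hEcard, nsmul_eq_mul] at this
      simpa using this
    nlinarith

/-- upper bound for the rank classes on level `j` of a fragment of size `m` -/
def bb (m j : ℕ) : ℕ := j + 1 + Nat.clog 2 m

/-- thresholds read off from the colours -/
def thr (ω : α → Fin (s + 1) × Fin (D + 1)) (m : ℕ) (x : α) : ℕ := bb m (ω x).1 - (ω x).2

/-- admissible fragments -/
def AdmC (lam : G → α → ℝ) (ω : α → Fin (s + 1) × Fin (D + 1)) (T : Finset α) : Prop :=
  T.Nonempty ∧ (∀ x ∈ T, ((ω x).1 : ℕ) < s) ∧
    (∃ g, FeasC (lam g) (fun x => (ω x).1) (thr ω T.card) (cntLe (fun x => (ω x).1) T)) ∧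
    ∀ g, FeasC (lam g) (fun x => (ω x).1) (thr ω T.card) (cntLe (fun x => (ω x).1) T) →
      ∀ x ∈ T, rk (lam g) x < 2 ^ (((ω x).1 : ℕ) + 1) * cntLe (fun x => (ω x).1) T (ω x).1

/-- bad labellings -/
def BadC (lam : G → α → ℝ) (l : α → Fin (s + 1)) : Prop :=
  ∀ g, ∃ j < s, 1 < 2 ^ (j + 1) * ∑ x ∈ univ.filter (fun x => j < (l x : ℕ)), lam g x

lemma exists_admC (lam : G → α → ℝ) (hlam0 : ∀ g x, 0 ≤ lam g x)
    (hD : s + Fintype.card α ≤ D)
    (ω : α → Fin (s + 1) × Fin (D + 1)) (hbad : BadC lam (fun x => (ω x).1))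
    (g : G) (H : Finset α) (hsupp : ∀ x, x ∉ H → lam g x = 0) (hsum : ∑ x, lam g x ≤ 1) :
    ∃ (ω' : α → Fin (s + 1) × Fin (D + 1)) (T : Finset α), T ⊆ H ∧ (∀ x, x ∉ T → ω x = ω' x) ∧
      AdmC lam ω' T ∧ ∀ x ∈ T, kap (lam g) x + (ω' x).2 = bb T.card (ω' x).1 := by
  classical
  have hs : 0 < s := by
    obtain ⟨j, hj, -⟩ := hbad g
    omega
  let Tf : (α → Fin (s + 1)) → Finset α := fun a => univ.filter (fun x => (a x : ℕ) < s)
  let lf : (α → Fin (s + 1)) → α → Fin (s + 1) := fun a x => if (a x : ℕ) < s then a x else (ω x).1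
  let θf : (α → Fin (s + 1)) → α → ℕ := fun a x =>
    if (a x : ℕ) < s then kap (lam g) x else thr ω (Tf a).card x
  let C : Finset (α → Fin (s + 1)) := univ.filter (fun a => Tf a ⊆ H ∧
    ∃ K, FeasC (lam K) (lf a) (θf a) (cntLe (lf a) (Tf a)))
  have hCne : C.Nonempty := by
    refine ⟨fun x => if x ∈ H then 0 else Fin.last s, ?_⟩
    simp only [C, mem_filter, mem_univ, true_and]
    refine ⟨?_, g, ?_⟩
    · intro x hx
      simp only [Tf, mem_filter, mem_univ, true_and] at hx
      by_contra hxH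
      simp [hxH] at hx
    · intro j _ B _
      rw [sum_eq_zero]
      · have h2 : ∑ x ∈ B, lam g x ≤ ∑ x, lam g x :=
          sum_le_sum_of_subset_of_nonneg (subset_univ _) (fun x _ _ => hlam0 g x)
        linarith
      · intro x hx
        simp only [mem_filter, mem_univ, true_and] at hx
        apply hsupp
        intro hxH
        simp [lf, θf, hxH, hs] at hx
  obtain ⟨a, haC, hmax⟩ := exists_max_image C (fun a => ∑ x, (a x : ℕ)) hCne
  simp only [C, mem_filter, mem_univ, true_and] at haC
  obtain ⟨hTH, K0, hK0⟩ := haC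
  have hmemT : ∀ (b : α → Fin (s + 1)) x, x ∈ Tf b ↔ (b x : ℕ) < s := by
    intro b x
    simp [Tf]
  have hkey : ∀ K, FeasC (lam K) (lf a) (θf a) (cntLe (lf a) (Tf a)) → ∀ x ∈ Tf a,
      kap (lam g) x ≤ kap (lam K) x ∧
        rk (lam K) x < 2 ^ ((a x : ℕ) + 1) * cntLe (lf a) (Tf a) (a x) := by
    intro K hK x hx
    by_contra hcon
    have hxs : (a x : ℕ) < s := (hmemT a x).mp hx
    let a' : α → Fin (s + 1) := Function.update a x ⟨(a x : ℕ) + 1, by omega⟩
    have ha'x : (a' x : ℕ) = a x + 1 := by simp [a']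
    have ha'y : ∀ y, y ≠ x → a' y = a y := by
      intro y hy
      simp [a', Function.update_of_ne hy]
    have hge : ∀ y, (a y : ℕ) ≤ a' y := by
      intro y
      by_cases hy : y = x
      · subst hy; omega
      · rw [ha'y y hy]
    have hTsub : Tf a' ⊆ Tf a := by
      intro y hy
      rw [hmemT] at hy ⊢
      have := hge y
      omega
    have hlT : ∀ (b : α → Fin (s + 1)), ∀ y ∈ Tf b, lf b y = b y := by
      intro b y hy
      rw [hmemT] at hy
      simp [lf, hy]
    have hcnt : ∀ i, cntLe (lf a') (Tf a') i ≤ cntLe (lf a) (Tf a) i := by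
      intro i
      apply card_le_card
      intro y hy
      simp only [mem_filter] at hy ⊢
      refine ⟨hTsub hy.1, ?_⟩
      rw [hlT a y (hTsub hy.1)]
      rw [hlT a' y hy.1] at hy
      exact (hge y).trans hy.2
    have hcntx : cntLe (lf a') (Tf a') (a x) + 1 ≤ cntLe (lf a) (Tf a) (a x) := by
      have hsub : (Tf a').filter (fun y => (lf a' y : ℕ) ≤ a x) ⊆
          ((Tf a).filter (fun y => (lf a y : ℕ) ≤ a x)).erase x := by
        intro y hy
        simp only [mem_filter, mem_erase] at hy ⊢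
        rw [hlT a' y hy.1] at hy
        refine ⟨?_, hTsub hy.1, ?_⟩
        · rintro rfl
          omega
        · rw [hlT a y (hTsub hy.1)]
          exact (hge y).trans hy.2
      have h1 := card_le_card hsub
      have hxm : x ∈ (Tf a).filter (fun y => (lf a y : ℕ) ≤ a x) := by
        simp only [mem_filter]
        exact ⟨hx, by rw [hlT a x hx]⟩
      rw [card_erase_of_mem hxm] at h1
      have h2 := card_pos.mpr ⟨x, hxm⟩
      unfold cntLe
      omega
    have hmem : a' ∈ C := by
      simp only [C, mem_filter, mem_univ, true_and]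
      refine ⟨hTsub.trans hTH, K, ?_⟩
      refine FeasC.raise (hlam0 K) x (a x) hK hcnt hcntx ?_ ?_ ?_
      · intro y hy
        simp only [lf, θf, ha'y y hy, true_and]
        split_ifs
        · exact le_rfl
        · unfold thr bb
          have := Nat.clog_mono_right 2 (card_le_card hTsub)
          omega
      · intro j hj hjx h
        simp only [lf, θf, hxs, if_true] at h ⊢
        by_cases h1 : (a' x : ℕ) < s
        · simp only [h1, if_true] at h
          omega
        · omega
      · simp only [θf, hxs, if_true]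
        by_contra h
        push Not at h
        exact hcon h
    have h1 := hmax a' hmem
    have h2 : ∑ y, (a y : ℕ) < ∑ y, (a' y : ℕ) :=
      sum_lt_sum (fun y _ => hge y) ⟨x, mem_univ _, by omega⟩
    omega
  have hkb : ∀ x ∈ Tf a, kap (lam g) x ≤ bb (Tf a).card (a x) := by
    intro x hx
    obtain ⟨h1, h2⟩ := hkey K0 hK0 x hx
    refine h1.trans ?_
    unfold kap bb
    rw [Nat.clog_le_iff_le_pow (by norm_num), pow_add]
    refine h2.le.trans (Nat.mul_le_mul_left _ ?_)
    exact (card_filter_le _ _).trans (Nat.le_pow_clog (by norm_num) _)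
  have hbD : ∀ x ∈ Tf a, bb (Tf a).card (a x) ≤ D := by
    intro x hx
    have h1 := (hmemT a x).mp hx
    have h2 : Nat.clog 2 (Tf a).card ≤ (Tf a).card := by
      rw [Nat.clog_le_iff_le_pow (by norm_num)]
      exact Nat.lt_two_pow_self.le
    have h3 := card_le_univ (Tf a)
    unfold bb
    omega
  let ω' : α → Fin (s + 1) × Fin (D + 1) := fun x =>
    if h : x ∈ Tf a then (a x, ⟨bb (Tf a).card (a x) - kap (lam g) x, by
      have := hbD x h; omega⟩) else ω x
  have hω'in : ∀ x ∈ Tf a, (ω' x).1 = a x ∧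
      ((ω' x).2 : ℕ) = bb (Tf a).card (a x) - kap (lam g) x := by
    intro x hx
    simp [ω', hx]
  have hω'out : ∀ x, x ∉ Tf a → ω' x = ω x := by
    intro x hx
    simp [ω', hx]
  have hl : (fun x => (ω' x).1) = lf a := by
    funext x
    by_cases hx : x ∈ Tf a
    · rw [(hω'in x hx).1]
      simp [lf, (hmemT a x).mp hx]
    · rw [hω'out x hx]
      have := (hmemT a x).not.mp hx
      simp [lf, this]
  have hθ : thr ω' (Tf a).card = θf a := by
    funext x
    by_cases hx : x ∈ Tf a
    · have h1 := hkb x hx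
      simp only [θf, (hmemT a x).mp hx, if_true, thr, (hω'in x hx).1, (hω'in x hx).2]
      omega
    · have := (hmemT a x).not.mp hx
      simp only [θf, this, if_false, thr, hω'out x hx]
  refine ⟨ω', Tf a, hTH, fun x hx => (hω'out x hx).symm, ⟨?_, ?_, ?_, ?_⟩, ?_⟩
  · by_contra hne
    rw [not_nonempty_iff_eq_empty] at hne
    have hll : lf a = fun x => (ω x).1 := by
      funext x
      have h1 : x ∉ Tf a := by simp [hne]
      have := (hmemT a x).not.mp h1
      simp [lf, this]
    obtain ⟨j, hj, hjb⟩ := hbad K0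
    have := (hK0.feas (hlam0 K0)) j hj ∅ (by simp)
    rw [hll] at this
    simp only [sum_empty, add_zero] at this
    linarith
  · intro x hx
    rw [(hω'in x hx).1]
    exact (hmemT a x).mp hx
  · rw [hl, hθ]
    exact ⟨K0, hK0⟩
  · rw [hl, hθ]
    intro K hK x hx
    rw [(hω'in x hx).1]
    exact (hkey K hK x hx).2
  · intro x hx
    rw [(hω'in x hx).1, (hω'in x hx).2]
    have := hkb x hx
    omega

end Sel

end Crest.Agent.R55
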