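import Mathlib
import Crest.Agent.R55.Sel

/-!
Counting for the coloured selector.
-/

set_option autoImplicit false

namespace Crest.Agent.R55

open Finset Crest.Agent.R52

section Count

variable {α : Type} [Fintype α] [DecidableEq α] {s D : ℕ} {G : Type}

omit [DecidableEq α] in
lemma sum_types (l : α → Fin (s + 1)) (A : Finset (Finset α))
    (hA : ∀ T ∈ A, T.Nonempty ∧ ∀ x ∈ T, (l x : ℕ) < s) (f : Finset α → ℝ)
    (hf : ∀ t : Fin s → ℕ, ∑ T ∈ A with typ l T = t, f T ≤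
      ∏ j : Fin s, (3 / (64 * 2 ^ (j : ℕ)) : ℝ) ^ t j) :
    ∑ T ∈ A, f T ≤ 1 / 4 := by
  classical
  let P : Finset (Fin s → ℕ) := Fintype.piFinset (fun _ => range (Fintype.card α + 1))
  let z : Fin s → ℝ := fun j => 3 / (64 * 2 ^ (j : ℕ))
  have hz0 : ∀ j, 0 ≤ z j := fun j => by positivity
  have hmaps : ∀ T ∈ A, typ l T ∈ P.erase 0 := by
    intro T hT
    obtain ⟨hne, hTs⟩ := hA T hT
    rw [mem_erase]
    constructor
    · intro h0
      have := card_typ l T hTs
      rw [h0] at this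
      simp only [Pi.zero_apply, sum_const_zero] at this
      have := card_pos.mpr hne
      omega
    · simp only [P, Fintype.mem_piFinset, mem_range]
      intro j
      exact Nat.lt_succ_of_le (card_le_univ _)
  rw [← sum_fiberwise_of_maps_to hmaps]
  refine (sum_le_sum (fun t _ => hf t)).trans ?_
  have h0P : (0 : Fin s → ℕ) ∈ P := by simp [P]
  have h2 := add_sum_erase P (fun t => ∏ j : Fin s, z j ^ t j) h0P
  simp only [Pi.zero_apply, pow_zero, prod_const_one] at h2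
  have h3 : ∑ t ∈ P, ∏ j : Fin s, z j ^ t j =
      ∏ j : Fin s, ∑ k ∈ range (Fintype.card α + 1), z j ^ k :=
    (prod_univ_sum (fun _ => range (Fintype.card α + 1)) (fun j k => z j ^ k)).symm
  have hzle : ∀ j, z j ≤ 1 / 2 := by
    intro j
    have : (1 : ℝ) ≤ 2 ^ (j : ℕ) := one_le_pow₀ (by norm_num)
    simp only [z]
    rw [div_le_iff₀ (by positivity)]
    linarith
  have h4 : ∏ j : Fin s, ∑ k ∈ range (Fintype.card α + 1), z j ^ k ≤
      ∏ j : Fin s, (1 + 2 * z j) :=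
    prod_le_prod (fun j _ => sum_nonneg (fun k _ => pow_nonneg (hz0 j) k))
      (fun j _ => geom_small_le _ (hz0 j) (hzle j) _)
  have h5 : ∏ j : Fin s, (1 + 2 * z j) ≤ Real.exp (∑ j : Fin s, 2 * z j) :=
    Real.prod_one_add_le_exp_sum _ (fun j => by have := hz0 j; positivity)
  have h6 : ∑ j : Fin s, 2 * z j ≤ 3 / 16 := by
    have : ∑ j : Fin s, 2 * z j = (∑ j ∈ range s, ((1 : ℝ) / 2) ^ j) * (3 / 32) := by
      rw [sum_mul, ← Fin.sum_univ_eq_sum_range (fun j => ((1 : ℝ) / 2) ^ j * (3 / 32))]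
      apply sum_congr rfl
      intro j _
      simp only [z, one_div, inv_pow]
      field_simp
      norm_num
    rw [this]
    have := geom_half_le s
    linarith
  have h7 : Real.exp (3 / 16) ≤ 5 / 4 := by
    have := Real.exp_bound_div_one_sub_of_interval' (x := 3 / 16) (by norm_num) (by norm_num)
    refine this.le.trans (by norm_num)
  have h8 := Real.exp_le_exp.mpr h6
  linarith

lemma sum_admC (lam : G → α → ℝ) (hlam0 : ∀ g x, 0 ≤ lam g x)
    (ω : α → Fin (s + 1) × Fin (D + 1)) (A : Finset (Finset α)) (hA : ∀ T ∈ A, AdmC lam ω T) :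
    ∑ T ∈ A, ∏ x ∈ T, (1 / (256 * 8 ^ ((ω x).1 : ℕ)) : ℝ) ≤ 1 / 4 := by
  classical
  apply sum_types (fun x => (ω x).1) A (fun T hT => ⟨(hA T hT).1, (hA T hT).2.1⟩)
  intro t
  rcases (A.filter (fun T => typ (fun x => (ω x).1) T = t)).eq_empty_or_nonempty with h | ⟨T0, hT0⟩
  · rw [h, sum_empty]; positivity
  obtain ⟨hT0A, hT0t⟩ := mem_filter.mp hT0
  obtain ⟨-, hT0s, ⟨K, hK⟩, -⟩ := hA T0 hT0A
  apply sum_adm_type {∅} (fun _ => lam K) (fun x => (ω x).1) t
  intro T hT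
  obtain ⟨hTA, hTt⟩ := mem_filter.mp hT
  obtain ⟨hne, hTs, -, hTh⟩ := hA T hTA
  have hcu : cntLe (fun x => (ω x).1) T = cntLe (fun x => (ω x).1) T0 := by
    funext j
    rw [cntLe_typ _ T hTs, cntLe_typ _ T0 hT0s, hTt, hT0t]
  have hcard : T.card = T0.card := by
    rw [card_typ _ T hTs, card_typ _ T0 hT0s, hTt, hT0t]
  rw [← hcu, ← hcard] at hK
  refine ⟨⟨hne, hTs, ⟨∅, mem_singleton_self _, hK.feas (hlam0 K)⟩, ?_⟩, hTt⟩
  intro _ _ _ x hx
  simp only [heavy, mem_filter, mem_univ, true_and]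
  exact hTh K hK x hx

omit [Fintype α] in
lemma pos_count [Fintype G] (σ : G → α → α) (hσ : ∀ g, Function.Injective (σ g)) (H : Finset α)
    (T : Finset α) (N : ℝ) (hN : 0 ≤ N)
    (hfib : ∀ τ ⊆ H, ((univ.filter (fun g => T.image (σ g) = τ)).card : ℝ) ≤ N)
    (Z : α → ℝ) (hZ : ∀ y, 0 ≤ Z y) (E : Finset G) (c : ℝ)
    (hE : ∀ g ∈ E, (∀ x ∈ T, σ g x ∈ H) ∧ c ≤ ∏ x ∈ T, Z (σ g x)) :
    E.card * c ≤ N * Real.exp (∑ y ∈ H, Z y) := by
  classical
  have h1 : E.card * c ≤ ∑ g ∈ E, ∏ y ∈ T.image (σ g), Z y := by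
    rw [← nsmul_eq_mul]
    apply card_nsmul_le_sum
    intro g hg
    rw [prod_image (fun a _ b _ h => hσ g h)]
    exact (hE g hg).2
  have hmaps : ∀ g ∈ E, T.image (σ g) ∈ H.powerset := by
    intro g hg
    rw [mem_powerset]
    intro y hy
    obtain ⟨x, hx, rfl⟩ := mem_image.mp hy
    exact (hE g hg).1 x hx
  rw [← sum_fiberwise_of_maps_to hmaps] at h1
  have h2 : ∀ τ ∈ H.powerset, ∑ g ∈ E with T.image (σ g) = τ, ∏ y ∈ T.image (σ g), Z y ≤
      N * ∏ y ∈ τ, Z y := by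
    intro τ hτ
    rw [sum_congr rfl (g := fun _ => ∏ y ∈ τ, Z y) (fun g hg => by rw [(mem_filter.mp hg).2]),
      sum_const, nsmul_eq_mul]
    apply mul_le_mul_of_nonneg_right _ (prod_nonneg (fun y _ => hZ y))
    refine le_trans ?_ (hfib τ (mem_powerset.mp hτ))
    exact_mod_cast card_le_card (filter_subset_filter _ (subset_univ E))
  refine h1.trans ((sum_le_sum h2).trans ?_)
  rw [← mul_sum, ← prod_one_add]
  exact mul_le_mul_of_nonneg_left (Real.prod_one_add_le_exp_sum H hZ) hN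

/-- weight attached to a pair (level, colour) -/
noncomputable def zz (j δ : ℕ) : ℝ := (3 / 2) ^ δ / (32 * 4 ^ j)

lemma zz_pos (j δ : ℕ) : 0 < zz j δ := by unfold zz; positivity

/-- total weight of a position -/
noncomputable def ZZ (s m κ : ℕ) : ℝ :=
  ∑ j ∈ range s, if κ ≤ bb m j then zz j (bb m j - κ) else 0

lemma ZZ_term_nonneg (m κ j : ℕ) : 0 ≤ (if κ ≤ bb m j then zz j (bb m j - κ) else 0) := by
  split_ifs
  · exact (zz_pos _ _).le
  · exact le_rfl

lemma ZZ_nonneg (s m κ : ℕ) : 0 ≤ ZZ s m κ :=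
  sum_nonneg (fun j _ => ZZ_term_nonneg m κ j)

lemma zz_le_ZZ {s m κ j δ : ℕ} (hj : j < s) (h : κ + δ = bb m j) : zz j δ ≤ ZZ s m κ := by
  have h1 := single_le_sum (f := fun j => if κ ≤ bb m j then zz j (bb m j - κ) else 0)
    (fun j _ => ZZ_term_nonneg m κ j) (mem_range.mpr hj)
  have h2 : κ ≤ bb m j := by omega
  have h3 : bb m j - κ = δ := by omega
  unfold ZZ
  simpa [h2, h3] using h1

lemma geom_mix (b : ℕ) : ∑ κ ∈ range (b + 1), (2 : ℝ) ^ κ * (3 / 2) ^ (b - κ) ≤ 4 * 2 ^ b := by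
  induction b with
  | zero => norm_num
  | succ b ih =>
    rw [sum_range_succ]
    have h1 : ∑ κ ∈ range (b + 1), (2 : ℝ) ^ κ * (3 / 2) ^ (b + 1 - κ) =
        (∑ κ ∈ range (b + 1), (2 : ℝ) ^ κ * (3 / 2) ^ (b - κ)) * (3 / 2) := by
      rw [sum_mul]
      apply sum_congr rfl
      intro κ hκ
      rw [mem_range] at hκ
      rw [show b + 1 - κ = (b - κ) + 1 by omega, pow_succ]
      ring
    rw [h1, Nat.sub_self, pow_succ]
    have : (0 : ℝ) < 2 ^ b := by positivity
    nlinarith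

lemma two_pow_clog_le (m : ℕ) (hm : 1 ≤ m) : 2 ^ Nat.clog 2 m ≤ 2 * m := by
  rcases Nat.eq_or_lt_of_le hm with h | h
  · subst h; simp
  · have h1 := Nat.pow_pred_clog_lt_self (b := 2) (by norm_num) h
    have h2 : 0 < Nat.clog 2 m := Nat.clog_pos (by norm_num) h
    have h3 : 2 ^ Nat.clog 2 m = 2 * 2 ^ (Nat.clog 2 m).pred := by
      conv_lhs => rw [← Nat.succ_pred_eq_of_pos h2]
      rw [Nat.pow_succ']
    omega

omit [DecidableEq α] in
lemma sum_ZZ_le (lam : α → ℝ) (s m : ℕ) (hm : 1 ≤ m) : ∑ y, ZZ s m (kap lam y) ≤ m := by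
  classical
  unfold ZZ
  rw [sum_comm]
  have h1 : ∀ j ∈ range s, ∑ y, (if kap lam y ≤ bb m j then zz j (bb m j - kap lam y) else 0) ≤
      (1 / 2) ^ j * (m / 2) := by
    intro j _
    rw [← sum_filter]
    have hmaps : ∀ y ∈ univ.filter (fun y => kap lam y ≤ bb m j),
        kap lam y ∈ range (bb m j + 1) := by
      intro y hy
      rw [mem_range]
      have := (mem_filter.mp hy).2
      omega
    rw [← sum_fiberwise_of_maps_to' hmaps (fun κ => zz j (bb m j - κ))]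
    have h2 : ∀ κ ∈ range (bb m j + 1),
        ∑ _y ∈ (univ.filter (fun y => kap lam y ≤ bb m j)) with kap lam _y = κ,
          zz j (bb m j - κ) ≤ (2 : ℝ) ^ κ * (3 / 2) ^ (bb m j - κ) * (1 / (32 * 4 ^ j)) := by
      intro κ _
      rw [sum_const, nsmul_eq_mul]
      have h3 : (((univ.filter (fun y => kap lam y ≤ bb m j)).filter
          (fun y => kap lam y = κ)).card : ℝ) ≤ 2 ^ κ := by
        exact_mod_cast (card_le_card (filter_subset_filter _ (subset_univ _))).trans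
          (card_kap_le lam κ)
      refine (mul_le_mul_of_nonneg_right h3 (zz_pos _ _).le).trans (le_of_eq ?_)
      unfold zz
      ring
    refine (sum_le_sum h2).trans ?_
    rw [← sum_mul]
    refine (mul_le_mul_of_nonneg_right (geom_mix _) (by positivity)).trans ?_
    have h4 : (2 : ℝ) ^ Nat.clog 2 m ≤ 2 * m := by exact_mod_cast two_pow_clog_le m hm
    have h5 : (4 : ℝ) ^ j = 2 ^ j * 2 ^ j := by rw [← mul_pow]; norm_num
    unfold bb
    rw [pow_add, pow_succ, h5, one_div 2, inv_pow]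
    have h6 : (0 : ℝ) < 2 ^ j := by positivity
    calc 4 * (2 ^ j * 2 * (2 : ℝ) ^ Nat.clog 2 m) * (1 / (32 * (2 ^ j * 2 ^ j)))
        = (2 ^ j)⁻¹ * (2 ^ Nat.clog 2 m / 4) := by field_simp; norm_num
      _ ≤ (2 ^ j)⁻¹ * (m / 2) := by
        apply mul_le_mul_of_nonneg_left _ (by positivity)
        linarith
  refine (sum_le_sum h1).trans ?_
  rw [← sum_mul]
  have := geom_half_le s
  have hm0 : (0 : ℝ) ≤ m := Nat.cast_nonneg _
  nlinarith

lemma sum_agree' {κ : Type} [Fintype κ] [DecidableEq κ] (π : κ → ℝ) (hπ1 : ∑ j, π j = 1)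
    (l' : α → κ) (T : Finset α) :
    ∑ l ∈ univ.filter (fun l : α → κ => ∀ x, x ∉ T → l x = l' x), ∏ x, π (l x) =
      ∏ x ∈ Tᶜ, π (l' x) := by
  classical
  have h1 := Fintype.prod_sum (R := ℝ) (κ := fun _ : α => κ)
    (fun x j => if x ∈ T then π j else if j = l' x then π j else 0)
  have h2 : ∏ x, ∑ j, (if x ∈ T then π j else if j = l' x then π j else 0) =
      ∏ x ∈ Tᶜ, π (l' x) := by
    rw [← prod_mul_prod_compl T]
    have : ∏ x ∈ T, ∑ j, (if x ∈ T then π j else if j = l' x then π j else 0) = 1 := by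
      apply prod_eq_one
      intro x hx
      simp [hx, hπ1]
    rw [this, one_mul]
    apply prod_congr rfl
    intro x hx
    rw [mem_compl] at hx
    simp [hx]
  rw [← h2, h1, sum_filter]
  apply sum_congr rfl
  intro l _
  split_ifs with h
  · apply prod_congr rfl
    intro x _
    by_cases hx : x ∈ T
    · simp [hx]
    · simp [hx, h x hx]
  · push Not at h
    obtain ⟨x, hx, hne⟩ := h
    symm
    apply prod_eq_zero (mem_univ x)
    simp [hx, hne]

open Classical in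
/-- a double counting principle: re-labelled fragments -/
lemma fragment_bound {κ I : Type} [Fintype κ] [Fintype G] [Fintype I] (w : κ → ℝ)
    (hw0 : ∀ k, 0 ≤ w k) (hw1 : ∑ k, w k = 1) (Bd : (α → κ) → Prop)
    (Ad : (α → κ) → I → Finset α → Prop) (Pos : G → (α → κ) → I → Finset α → Prop)
    (c : (α → κ) → Finset α → ℝ) (ε : ℝ)
    (hex : ∀ ω, Bd ω → ∀ g, ∃ ω' i T, (∀ x, x ∉ T → ω x = ω' x) ∧ Ad ω' i T ∧ Pos g ω' i T)
    (hpos : ∀ ω' i T, Ad ω' i T → ((univ.filter (fun g => Pos g ω' i T)).card : ℝ) ≤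
      Fintype.card G * ((∏ x ∈ T, w (ω' x)) * c ω' T))
    (hsum : ∀ ω', ∑ i, ∑ T ∈ univ.filter (fun T => Ad ω' i T), c ω' T ≤ ε) [Nonempty G] :
    ∑ ω ∈ univ.filter Bd, ∏ x, w (ω x) ≤ ε := by
  let W : (α → κ) → ℝ := fun l => ∏ x, w (l x)
  have hW0 : ∀ l, 0 ≤ W l := fun l => prod_nonneg (fun x _ => hw0 _)
  have hG : (0 : ℝ) < Fintype.card G := by exact_mod_cast Fintype.card_pos
  let R : (α → κ) → ℝ := fun ω => ∑ z : (α → κ) × I × Finset α,
    if (∀ x, x ∉ z.2.2 → ω x = z.1 x) ∧ Ad z.1 z.2.1 z.2.2 then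
      ((univ.filter (fun g => Pos g z.1 z.2.1 z.2.2)).card : ℝ) else 0
  have hR0 : ∀ ω, 0 ≤ R ω := by
    intro ω
    apply sum_nonneg
    intro z _
    split_ifs <;> positivity
  have h1 : ∀ ω, Bd ω → (Fintype.card G : ℝ) ≤ R ω := by
    intro ω hω
    have e : R ω = ∑ g : G, ∑ z : (α → κ) × I × Finset α,
        if (∀ x, x ∉ z.2.2 → ω x = z.1 x) ∧ Ad z.1 z.2.1 z.2.2 ∧ Pos g z.1 z.2.1 z.2.2 then
          (1 : ℝ) else 0 := by
      rw [sum_comm]
      apply sum_congr rfl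
      intro z _
      split_ifs with h
      · simp [h.2]
        congr 1
        ext g
        simp
        exact fun _ => h.1
      · symm
        apply sum_eq_zero
        intro g _
        rw [if_neg]
        exact fun h' => h ⟨h'.1, h'.2.1⟩
    rw [e, ← card_univ, ← mul_one (card (univ : Finset G) : ℝ), ← nsmul_eq_mul]
    apply card_nsmul_le_sum
    intro g _
    obtain ⟨ω', i, T, h1, h2, h3⟩ := hex ω hω g
    refine le_trans ?_ (single_le_sum (a := (ω', i, T)) ?_ (mem_univ _))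
    · rw [if_pos ⟨h1, h2, h3⟩]
    · intro z _
      split_ifs <;> norm_num
  have h2 : ∑ ω, W ω * R ω ≤ Fintype.card G * ε := by
    simp only [R, mul_sum]
    rw [sum_comm]
    have e1 : ∀ z : (α → κ) × I × Finset α, ∑ ω : α → κ, W ω *
        (if (∀ x, x ∉ z.2.2 → ω x = z.1 x) ∧ Ad z.1 z.2.1 z.2.2 then
          ((univ.filter (fun g => Pos g z.1 z.2.1 z.2.2)).card : ℝ) else 0) ≤
        Fintype.card G * (W z.1 * if Ad z.1 z.2.1 z.2.2 then c z.1 z.2.2 else 0) := by
      rintro ⟨ω', i, T⟩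
      by_cases hadm : Ad ω' i T
      · simp only [hadm, and_true, if_true, mul_ite, mul_zero]
        rw [← sum_filter, ← sum_mul]
        simp only [W]
        have e2 := sum_agree' w hw1 ω' T
        have e3 : ∑ l ∈ univ.filter (fun l : α → κ => ∀ x, x ∉ T → l x = ω' x), ∏ x, w (l x) =
            ∏ x ∈ Tᶜ, w (ω' x) := by convert e2
        rw [e3, ← prod_mul_prod_compl T (fun x => w (ω' x))]
        have h4 : 0 ≤ ∏ x ∈ Tᶜ, w (ω' x) := prod_nonneg (fun x _ => hw0 _)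
        have := mul_le_mul_of_nonneg_left (hpos ω' i T hadm) h4
        linarith
      · simp [hadm]
    refine (sum_le_sum (fun z _ => e1 z)).trans ?_
    rw [← mul_sum]
    apply mul_le_mul_of_nonneg_left _ hG.le
    rw [Fintype.sum_prod_type]
    have e2 : ∀ ω' : α → κ, ∑ y : I × Finset α,
        W ω' * (if Ad ω' y.1 y.2 then c ω' y.2 else 0) ≤ W ω' * ε := by
      intro ω'
      rw [← mul_sum]
      apply mul_le_mul_of_nonneg_left _ (hW0 ω')
      rw [Fintype.sum_prod_type]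
      simpa only [sum_filter] using hsum ω'
    refine (sum_le_sum (fun ω' _ => e2 ω')).trans ?_
    rw [← sum_mul]
    have : ∑ l' : α → κ, W l' = 1 := pi_sum_one w hw1
    rw [this, one_mul]
  have h3 : Fintype.card G * ∑ ω ∈ univ.filter Bd, W ω ≤ ∑ ω, W ω * R ω := by
    rw [mul_sum, sum_filter]
    apply sum_le_sum
    intro ω _
    split_ifs with h
    · rw [mul_comm]
      exact mul_le_mul_of_nonneg_left (h1 ω h) (hW0 ω)
    · exact mul_nonneg (hW0 ω) (hR0 ω)
  exact le_of_mul_le_mul_left (h3.trans h2) hG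

end Count

end Crest.Agent.R55
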