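import Mathlib
import Crest.Prelude.Def_FinProb
import Crest.Agent.R55.Count

/-!
A spread family of sets of size at most `h` is hit by a random set of density `16 r (log₂ h + 1)`:
a one-shot version of the fragment argument.
-/

set_option autoImplicit false

namespace Crest.Agent.R55

open Finset Crest.Agent.R52

section KK

variable {α G : Type} [Fintype α] [DecidableEq α] {s : ℕ}

/-- a member that is covered by the levels up to `j` and meets level `j` in few points -/
def GoodK (Hs : G → Finset α) (h : ℕ) (l : α → Fin (s + 1)) (j : ℕ) (k : G) : Prop :=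
  (∀ x ∈ Hs k, (l x : ℕ) ≤ j) ∧ ((Hs k).filter (fun x => (l x : ℕ) = j)).card * 2 ^ j ≤ h

/-- admissible fragments on level `j` -/
def AdK (Hs : G → Finset α) (h : ℕ) (l : α → Fin (s + 1)) (j : ℕ) (T : Finset α) : Prop :=
  h < T.card * 2 ^ (j + 1) ∧ (∀ x ∈ T, (l x : ℕ) = j) ∧ (∃ k, GoodK Hs h l j k) ∧
    ∀ k, GoodK Hs h l j k → T ⊆ Hs k

lemma exists_adK (Hs : G → Finset α) (h : ℕ) (hcard : ∀ g, (Hs g).card ≤ h) (hs : 0 < s)
    (hhs : h < 2 ^ s) (l : α → Fin (s + 1)) (hbad : ∀ g, ∃ x ∈ Hs g, ¬ (l x : ℕ) < s) (g : G) :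
    ∃ (l' : α → Fin (s + 1)) (j : Fin s) (T : Finset α), (∀ x, x ∉ T → l x = l' x) ∧
      AdK Hs h l' j T ∧ T ⊆ Hs g := by
  classical
  let Cand : ℕ → Finset α → Prop := fun j T => T ⊆ Hs g ∧ (∀ x ∈ T, j < (l x : ℕ)) ∧
    ∃ k, (∀ x ∈ Hs k, (l x : ℕ) ≤ j ∨ x ∈ T) ∧
      ((Hs k).filter (fun x => (l x : ℕ) = j ∨ x ∈ T)).card * 2 ^ j ≤ h
  have h0 : Cand 0 ((Hs g).filter (fun x => 0 < (l x : ℕ))) := by
    refine ⟨filter_subset _ _, fun x hx => (mem_filter.mp hx).2, g, ?_, ?_⟩
    · intro x hx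
      by_cases hx0 : 0 < (l x : ℕ)
      · exact Or.inr (mem_filter.mpr ⟨hx, hx0⟩)
      · left; omega
    · rw [pow_zero, mul_one]
      exact (card_filter_le _ _).trans (hcard g)
  obtain ⟨j, hj, hjmax⟩ := exists_max_image ((range s).filter (fun j => ∃ T, Cand j T)) id
    ⟨0, mem_filter.mpr ⟨mem_range.mpr hs, _, h0⟩⟩
  obtain ⟨hjs, T1, hT1⟩ := mem_filter.mp hj
  rw [mem_range] at hjs
  obtain ⟨T, hT, hTmin⟩ := exists_min_image (univ.filter (fun T => Cand j T)) card
    ⟨T1, mem_filter.mpr ⟨mem_univ _, hT1⟩⟩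
  obtain ⟨hTg, hTl, k, hk1, hk2⟩ := (mem_filter.mp hT).2
  let l' : α → Fin (s + 1) := fun x => if x ∈ T then ⟨j, by omega⟩ else l x
  have hin : ∀ x ∈ T, (l' x : ℕ) = j := by
    intro x hx
    simp [l', hx]
  have hout : ∀ x, x ∉ T → l' x = l x := by
    intro x hx
    simp [l', hx]
  refine ⟨l', ⟨j, hjs⟩, T, fun x hx => (hout x hx).symm, ⟨?_, hin, ⟨k, ?_, ?_⟩, ?_⟩, hTg⟩
  · by_contra hcon
    simp only [not_lt] at hcon
    by_cases hj1 : j + 1 < s
    · have hc : Cand (j + 1) (T.filter (fun x => j + 1 < (l x : ℕ))) := by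
        refine ⟨(filter_subset _ _).trans hTg, fun x hx => (mem_filter.mp hx).2, k, ?_, ?_⟩
        · intro x hx
          rcases hk1 x hx with h1 | h1
          · left; omega
          · by_cases h2 : j + 1 < (l x : ℕ)
            · exact Or.inr (mem_filter.mpr ⟨h1, h2⟩)
            · left; omega
        · refine le_trans (Nat.mul_le_mul_right _ (card_le_card ?_)) hcon
          intro x hx
          obtain ⟨hx1, hx2⟩ := mem_filter.mp hx
          rcases hx2 with h2 | h2
          · rcases hk1 x hx1 with h1 | h1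
            · omega
            · exact h1
          · exact (mem_filter.mp h2).1
      have := hjmax (j + 1) (mem_filter.mpr ⟨mem_range.mpr hj1, _, hc⟩)
      simp at this
    · have hjs' : j + 1 = s := by omega
      rw [hjs'] at hcon
      have hT0 : T.card = 0 := by
        by_contra h1
        have : 2 ^ s ≤ T.card * 2 ^ s := Nat.le_mul_of_pos_left _ (Nat.pos_of_ne_zero h1)
        omega
      rw [card_eq_zero] at hT0
      obtain ⟨x, hx, hxs⟩ := hbad k
      rcases hk1 x hx with h1 | h1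
      · omega
      · simp [hT0] at h1
  · intro x hx
    by_cases hxT : x ∈ T
    · exact (hin x hxT).le
    · rw [hout x hxT]
      exact (hk1 x hx).resolve_right hxT
  · refine le_trans (Nat.mul_le_mul_right _ (card_le_card ?_)) hk2
    intro x hx
    rw [mem_filter] at hx ⊢
    refine ⟨hx.1, ?_⟩
    by_cases hxT : x ∈ T
    · exact Or.inr hxT
    · rw [← hout x hxT]
      exact Or.inl hx.2
  · rintro k' ⟨hk1', hk2'⟩
    have hc : Cand j (T ∩ Hs k') := by
      refine ⟨inter_subset_left.trans hTg, fun x hx => hTl x (mem_inter.mp hx).1, k', ?_, ?_⟩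
      · intro x hx
        by_cases hxT : x ∈ T
        · exact Or.inr (mem_inter.mpr ⟨hxT, hx⟩)
        · rw [← hout x hxT]
          exact Or.inl (hk1' x hx)
      · refine le_trans (Nat.mul_le_mul_right _ (card_le_card ?_)) hk2'
        intro x hx
        rw [mem_filter] at hx ⊢
        refine ⟨hx.1, ?_⟩
        by_cases hxT : x ∈ T
        · exact hin x hxT
        · rw [hout x hxT]
          rcases hx.2 with h1 | h1
          · exact h1
          · exact absurd (mem_inter.mp h1).1 hxT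
    have h1 := hTmin _ (mem_filter.mpr ⟨mem_univ _, hc⟩)
    have h2 := eq_of_subset_of_card_le (inter_subset_left (s₁ := T) (s₂ := Hs k')) h1
    rw [← h2]
    exact inter_subset_right

lemma geom_quarter (s : ℕ) : ∑ j ∈ range s, ((1 : ℝ) / 4) ^ (s - j) ≤ 1 / 3 := by
  induction s with
  | zero => norm_num
  | succ s ih =>
    rw [sum_range_succ]
    have h1 : ∑ j ∈ range s, ((1 : ℝ) / 4) ^ (s + 1 - j) =
        (∑ j ∈ range s, ((1 : ℝ) / 4) ^ (s - j)) * (1 / 4) := by
      rw [sum_mul]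
      apply sum_congr rfl
      intro j hj
      rw [mem_range] at hj
      rw [show s + 1 - j = (s - j) + 1 by omega, pow_succ]
    rw [h1, Nat.add_sub_cancel_left]
    linarith

omit [Fintype α] [DecidableEq α] in
lemma sum_adK (Hs : G → Finset α) (h : ℕ) (hhs : 2 ^ s ≤ 2 * h) (l : α → Fin (s + 1)) (j : ℕ)
    (hj : j < s) (A : Finset (Finset α)) (hA : ∀ T ∈ A, AdK Hs h l j T) :
    ∑ T ∈ A, ((1 : ℝ) / 16) ^ T.card ≤ (1 / 4) ^ (s - j) := by
  classical
  rcases A.eq_empty_or_nonempty with rfl | ⟨T0, hT0⟩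
  · rw [sum_empty]; positivity
  obtain ⟨-, -, ⟨k, hk⟩, -⟩ := hA T0 hT0
  set t := h / 2 ^ (j + 1) + 1 with ht
  set S := (Hs k).filter (fun x => (l x : ℕ) = j) with hS
  have hpos : 0 < 2 ^ (j + 1) := by positivity
  have hht : h < t * 2 ^ (j + 1) := by
    rw [ht, ← Nat.div_lt_iff_lt_mul hpos]
    omega
  have hSt : S.card ≤ 2 * t := by
    have h1 : S.card * 2 ^ j ≤ h := hk.2
    have h2 : S.card * 2 ^ j < 2 * t * 2 ^ j := by
      rw [pow_succ] at hht
      nlinarith
    exact (lt_of_mul_lt_mul_right h2 (Nat.zero_le _)).le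
  have hts : s - j ≤ t := by
    rcases Nat.eq_or_lt_of_le (Nat.succ_le_of_lt hj) with h1 | h1
    · have : 1 ≤ t := Nat.le_add_left _ _
      omega
    · have h2 : 2 ^ (s - j - 2) ≤ h / 2 ^ (j + 1) := by
        rw [Nat.le_div_iff_mul_le hpos, ← pow_add]
        have h3 : 2 ^ s = 2 * 2 ^ (s - j - 2 + (j + 1)) := by
          rw [← pow_succ']
          congr 1
          omega
        omega
      have h3 : s - j - 2 < 2 ^ (s - j - 2) := Nat.lt_two_pow_self
      omega
  have hsub : A ⊆ S.powerset := by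
    intro T hT
    obtain ⟨-, h2, -, h4⟩ := hA T hT
    rw [mem_powerset]
    intro x hx
    exact mem_filter.mpr ⟨h4 k hk hx, h2 x hx⟩
  have h1 : ∑ T ∈ A, ((1 : ℝ) / 16) ^ T.card ≤ A.card * (1 / 16) ^ t := by
    rw [← nsmul_eq_mul]
    apply sum_le_card_nsmul
    intro T hT
    apply pow_le_pow_of_le_one (by norm_num) (by norm_num)
    have h2 := (hA T hT).1
    rw [← Nat.div_lt_iff_lt_mul hpos] at h2
    omega
  have h2 : (A.card : ℝ) ≤ 4 ^ t := by
    have h3 := card_le_card hsub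
    rw [card_powerset] at h3
    have h4 : 2 ^ S.card ≤ 2 ^ (2 * t) := Nat.pow_le_pow_right (by norm_num) hSt
    rw [pow_mul] at h4
    exact_mod_cast h3.trans h4
  calc ∑ T ∈ A, ((1 : ℝ) / 16) ^ T.card ≤ 4 ^ t * (1 / 16) ^ t :=
        h1.trans (mul_le_mul_of_nonneg_right h2 (by positivity))
    _ = (1 / 4) ^ t := by rw [← mul_pow]; norm_num
    _ ≤ (1 / 4) ^ (s - j) := pow_le_pow_of_le_one (by norm_num) (by norm_num) hts

lemma sum_push {κ κ' : Type} [Fintype κ] [Fintype κ'] [DecidableEq κ'] (π : κ → ℝ) (f : κ → κ')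
    (F : (α → κ') → ℝ) :
    ∑ l : α → κ, (∏ x, π (l x)) * F (fun x => f (l x)) =
      ∑ ω : α → κ', (∏ x, ∑ j ∈ univ.filter (fun j => f j = ω x), π j) * F ω := by
  classical
  rw [← sum_fiberwise (s := univ) (g := fun (l : α → κ) x => f (l x))]
  apply sum_congr rfl
  intro ω _
  rw [prod_univ_sum, sum_mul]
  apply sum_congr
  · ext l
    simp [funext_iff]
  · intro l hl
    have : (fun x => f (l x)) = ω := by
      funext x
      simpa using Fintype.mem_piFinset.mp hl x
    rw [this]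

theorem kk [Fintype G] [Nonempty G] (Hs : G → Finset α) (h : ℕ) (hh : 1 ≤ h)
    (hcard : ∀ g, (Hs g).card ≤ h) (r : ℝ) (hr : 0 ≤ r)
    (hspread : ∀ T : Finset α,
      ((univ.filter (fun g => T ⊆ Hs g)).card : ℝ) ≤ r ^ T.card * Fintype.card G)
    (q : ℝ) (hq1 : q ≤ 1) (hq : 16 * r * (Nat.log 2 h + 1 : ℕ) ≤ q) :
    1 / 2 ≤ Crest.FinProb.bernoulliProb q {ω : α → Bool | ∃ g, ∀ x ∈ Hs g, ω x = true} := by
  classical
  obtain ⟨s, hs⟩ : ∃ s, s = Nat.log 2 h + 1 := ⟨_, rfl⟩
  rw [← hs] at hq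
  have hs0 : 0 < s := by omega
  have hs0' : (0 : ℝ) < s := by exact_mod_cast hs0
  have hhs : h < 2 ^ s := hs ▸ Nat.lt_pow_succ_log_self (by norm_num) h
  have hhs' : 2 ^ s ≤ 2 * h := by
    have := Nat.pow_log_le_self 2 (x := h) (by omega)
    rw [hs, pow_succ]
    omega
  have hq0 : 0 ≤ q := le_trans (by positivity) hq
  let π : Fin (s + 1) → ℝ := fun j => if (j : ℕ) < s then q / s else 1 - q
  have hπ0 : ∀ j, 0 ≤ π j := by
    intro j
    simp only [π]
    split_ifs
    · positivity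
    · linarith
  have hfib : ∀ b : Bool, ∑ j ∈ univ.filter (fun j : Fin (s + 1) => decide ((j : ℕ) < s) = b),
      π j = if b then q else 1 - q := by
    intro b
    rw [sum_filter, Fin.sum_univ_castSucc]
    cases b
    · simp [π]
    · simp [π]
      field_simp
  have hπ1 : ∑ j, π j = 1 := by
    rw [Fin.sum_univ_castSucc]
    simp [π]
    field_simp
    ring
  have key := fragment_bound (G := G) (I := Fin s) (α := α) π hπ0 hπ1
    (fun l => ∀ g, ∃ x ∈ Hs g, ¬ (l x : ℕ) < s) (fun l j T => AdK Hs h l j T)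
    (fun g _ _ T => T ⊆ Hs g) (fun _ T => (1 / 16) ^ T.card) (1 / 3)
    (fun l hl g => exists_adK Hs h hcard hs0 hhs l hl g) ?_ ?_
  · have h1 := sum_push (α := α) π (fun j : Fin (s + 1) => decide ((j : ℕ) < s))
      (fun ω => if ∃ g, ∀ x ∈ Hs g, ω x = true then 1 else 0)
    simp only [hfib] at h1
    have h2 : Crest.FinProb.bernoulliProb q {ω : α → Bool | ∃ g, ∀ x ∈ Hs g, ω x = true} =
        ∑ ω : α → Bool, (∏ x, if ω x = true then q else 1 - q) *
          (if ∃ g, ∀ x ∈ Hs g, ω x = true then 1 else 0) := by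
      unfold Crest.FinProb.bernoulliProb Crest.FinProb.bernoulliWeight
      rw [sum_filter]
      apply sum_congr rfl
      intro ω _
      simp only [Set.mem_ofPred_eq, mul_ite, mul_one, mul_zero]
      congr
    rw [h2, ← h1]
    have h3 := sum_filter_add_sum_filter_not univ
      (fun l : α → Fin (s + 1) => ∀ g, ∃ x ∈ Hs g, ¬ (l x : ℕ) < s) (fun l => ∏ x, π (l x))
    rw [pi_sum_one π hπ1] at h3
    have h4 : ∑ l ∈ univ.filter (fun l : α → Fin (s + 1) =>
        ¬ ∀ g, ∃ x ∈ Hs g, ¬ (l x : ℕ) < s), ∏ x, π (l x) =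
        ∑ l : α → Fin (s + 1), (∏ x, π (l x)) *
          (if ∃ g, ∀ x ∈ Hs g, decide ((l x : ℕ) < s) = true then 1 else 0) := by
      rw [sum_filter]
      apply sum_congr rfl
      intro l _
      simp only [not_forall, not_exists, not_and, not_not, decide_eq_true_eq, mul_ite, mul_one,
        mul_zero]
    have h5 : ∑ l ∈ univ.filter (fun l : α → Fin (s + 1) =>
        ∀ g, ∃ x ∈ Hs g, ¬ (l x : ℕ) < s), ∏ x, π (l x) ≤ 1 / 3 := by
      refine le_trans (le_of_eq ?_) key
      congr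
    rw [← h4]
    linarith
  · intro l j T hT
    refine le_trans (le_of_eq (by congr)) ((hspread T).trans ?_)
    rw [mul_comm]
    apply mul_le_mul_of_nonneg_left _ (Nat.cast_nonneg _)
    rw [← prod_const, ← prod_const, ← prod_mul_distrib]
    apply prod_le_prod (fun _ _ => hr)
    intro x hx
    have h1 : (l x : ℕ) < s := by rw [hT.2.1 x hx]; exact j.2
    simp only [π, h1, if_true]
    rw [div_mul_eq_mul_div, le_div_iff₀ hs0']
    linarith
  · intro l
    refine le_trans ?_ (geom_quarter s)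
    rw [← Fin.sum_univ_eq_sum_range (fun j => ((1 : ℝ) / 4) ^ (s - j))]
    apply sum_le_sum
    intro j _
    apply sum_adK Hs h hhs' l j j.2
    intro T hT
    exact (mem_filter.mp hT).2

end KK

end Crest.Agent.R55
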