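import Mathlib
import Crest.Agent.R55.Count

/-!
From large orbits of all subsets to spreadness of the orbit of the whole set.
-/

set_option autoImplicit false

namespace Crest.Agent.R55

open Finset Crest.Agent.R52

lemma exists_colours (D : ℕ) : ∃ ρ : Fin (D + 1) → ℝ, ∑ δ, ρ δ = 1 ∧
    ∀ δ : Fin (D + 1), (1 / 4) * (3 / 4) ^ (δ : ℕ) ≤ ρ δ := by
  refine ⟨fun δ => if (δ : ℕ) < D then (1 / 4) * (3 / 4) ^ (δ : ℕ) else (3 / 4) ^ D, ?_, ?_⟩
  · rw [Fin.sum_univ_castSucc]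
    simp only [Fin.val_castSucc, Fin.is_lt, if_true, Fin.val_last, lt_irrefl, if_false]
    rw [Fin.sum_univ_eq_sum_range (fun δ => (1 / 4 : ℝ) * (3 / 4) ^ δ), ← mul_sum,
      geom_sum_eq (by norm_num)]
    ring
  · intro δ
    dsimp only
    split_ifs with h
    · exact le_rfl
    · have : (δ : ℕ) = D := by have := δ.2; omega
      rw [this]
      have : (0 : ℝ) < (3 / 4) ^ D := by positivity
      linarith

lemma exists_labels' (p : ℝ) (hp : 0 < p) :
    ∃ (s : ℕ) (π : Fin (s + 1) → ℝ), (∀ j, 0 ≤ π j) ∧ ∑ j, π j = 1 ∧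
      (∀ j : Fin (s + 1), (j : ℕ) < s → 2 ^ 18 * 32 ^ (j : ℕ) * p ≤ π j) ∧
      (∀ j : Fin (s + 1), π j ≤ 2 ^ 18 * 32 ^ (j : ℕ) * p) := by
  classical
  let a : ℕ → ℝ := fun j => 2 ^ 18 * 32 ^ j * p
  have ha0 : ∀ j, 0 ≤ a j := fun j => by positivity
  have hex : ∃ s, 1 < ∑ j ∈ range (s + 1), a j := by
    obtain ⟨n, hn⟩ := pow_unbounded_of_one_lt (1 / (2 ^ 18 * p)) (by norm_num : (1 : ℝ) < 32)
    refine ⟨n, ?_⟩
    have h1 : a n ≤ ∑ j ∈ range (n + 1), a j :=
      single_le_sum (fun j _ => ha0 j) (mem_range.mpr (Nat.lt_succ_self n))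
    rw [div_lt_iff₀ (by positivity)] at hn
    have : 1 < a n := by simp only [a]; linarith
    linarith
  let s := Nat.find hex
  have hs1 : 1 < ∑ j ∈ range (s + 1), a j := Nat.find_spec hex
  have hs2 : ∑ j ∈ range s, a j ≤ 1 := by
    rcases Nat.eq_zero_or_pos s with h | h
    · simp [h]
    · have := Nat.find_min hex (m := s - 1) (by omega)
      rw [show s - 1 + 1 = s by omega] at this
      exact not_lt.mp this
  rw [sum_range_succ] at hs1
  refine ⟨s, fun j => if (j : ℕ) < s then a j else 1 - ∑ j ∈ range s, a j, ?_, ?_, ?_, ?_⟩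
  · intro j
    dsimp only
    split_ifs
    · exact ha0 _
    · linarith
  · rw [Fin.sum_univ_castSucc]
    simp only [Fin.val_castSucc, Fin.is_lt, if_true, Fin.val_last, lt_irrefl, if_false]
    rw [Fin.sum_univ_eq_sum_range a]
    ring
  · intro j hj
    simp [hj, a]
  · intro j
    dsimp only
    split_ifs with h
    · exact le_rfl
    · have : (j : ℕ) = s := by have := j.2; omega
      rw [this]
      change _ ≤ a s
      linarith

section Spread

variable {α Γ : Type} [Fintype α] [DecidableEq α] [Group Γ] [Fintype Γ] [MulAction Γ α]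

open Classical in
theorem selectorC {s D : ℕ} (hD : s + Fintype.card α ≤ D) (H : Finset α) (p : ℝ) (hp : 0 ≤ p)
    (hfib : ∀ τ ⊆ H, ∀ T : Finset α,
      ((univ.filter (fun g : Γ => T.image (fun x => g • x) = τ)).card : ℝ) ≤
        2 * p ^ T.card * Fintype.card Γ)
    (lam0 : α → ℝ) (h0 : ∀ x, 0 ≤ lam0 x) (hsupp : ∀ x, x ∉ H → lam0 x = 0)
    (hsum : ∑ x, lam0 x ≤ 1) (π : Fin (s + 1) → ℝ) (hπ0 : ∀ j, 0 ≤ π j) (hπ1 : ∑ j, π j = 1)
    (hπp : ∀ j : Fin (s + 1), (j : ℕ) < s → 2 ^ 18 * 32 ^ (j : ℕ) * p ≤ π j)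
    (ρ : Fin (D + 1) → ℝ) (hρ1 : ∑ δ, ρ δ = 1)
    (hρ : ∀ δ : Fin (D + 1), (1 / 4) * (3 / 4) ^ (δ : ℕ) ≤ ρ δ) :
    ∑ ω ∈ univ.filter (fun ω : α → Fin (s + 1) × Fin (D + 1) =>
        BadC (fun (g : Γ) x => lam0 (g • x)) (fun x => (ω x).1)),
      ∏ x, (π (ω x).1 * ρ (ω x).2) ≤ 1 / 4 := by
  have hρ0 : ∀ δ, 0 ≤ ρ δ := fun δ => le_trans (by positivity) (hρ δ)
  let lam : Γ → α → ℝ := fun g x => lam0 (g • x)
  have hkap : ∀ g x, kap (lam g) x = kap lam0 (g • x) := by
    intro g x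
    unfold kap
    rw [show rk (lam g) x = rk lam0 (g • x) from rk_comp lam0 (MulAction.toPerm g) x]
  have key := fragment_bound (G := Γ) (I := Unit) (α := α)
    (fun k : Fin (s + 1) × Fin (D + 1) => π k.1 * ρ k.2)
    (fun k => mul_nonneg (hπ0 _) (hρ0 _))
    (by rw [Fintype.sum_prod_type, ← sum_mul_sum, hπ1, hρ1, one_mul])
    (fun ω => BadC lam (fun x => (ω x).1)) (fun ω' _ T => AdmC lam ω' T)
    (fun g ω' _ T => (∀ x ∈ T, g • x ∈ H) ∧
      ∀ x ∈ T, kap (lam g) x + (ω' x).2 = bb T.card (ω' x).1)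
    (fun ω' T => ∏ x ∈ T, (1 / (256 * 8 ^ ((ω' x).1 : ℕ)) : ℝ)) (1 / 4) ?_ ?_ ?_
  · convert key
  · intro ω hω g
    obtain ⟨ω', T, h1, h2, h3, h4⟩ := exists_admC lam (fun g x => h0 _) hD ω hω g
      (univ.filter (fun x => g • x ∈ H)) (by
        intro x hx
        apply hsupp
        simpa using hx) (by
        have := Equiv.sum_comp (MulAction.toPerm g : α ≃ α) lam0
        simp only [MulAction.toPerm_apply] at this
        simp only [lam]
        linarith)
    exact ⟨ω', (), T, h2, h3, fun x hx => by simpa using h1 hx, h4⟩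
  · intro ω' _ T hT
    have hm : 1 ≤ T.card := card_pos.mpr hT.1
    have hΓ : (0 : ℝ) ≤ Fintype.card Γ := Nat.cast_nonneg _
    have h1 := pos_count (fun (g : Γ) x => g • x) (fun g => MulAction.injective g) H T
      (2 * p ^ T.card * Fintype.card Γ) (by positivity) (fun τ hτ => hfib τ hτ T)
      (fun y => ZZ s T.card (kap lam0 y)) (fun y => ZZ_nonneg _ _ _)
      (univ.filter (fun g : Γ => (∀ x ∈ T, g • x ∈ H) ∧
        ∀ x ∈ T, kap (lam g) x + (ω' x).2 = bb T.card (ω' x).1))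
      (∏ x ∈ T, zz (ω' x).1 (ω' x).2) (by
        intro g hg
        obtain ⟨h1, h2⟩ := (mem_filter.mp hg).2
        refine ⟨h1, prod_le_prod (fun x _ => (zz_pos _ _).le) ?_⟩
        intro x hx
        apply zz_le_ZZ (hT.2.1 x hx)
        rw [← hkap]
        exact h2 x hx)
    have h2 : ∑ y ∈ H, ZZ s T.card (kap lam0 y) ≤ T.card :=
      (sum_le_sum_of_subset_of_nonneg (subset_univ H) (fun y _ _ => ZZ_nonneg _ _ _)).trans
        (sum_ZZ_le lam0 s T.card hm)
    have h3 : Real.exp (∑ y ∈ H, ZZ s T.card (kap lam0 y)) ≤ 3 ^ T.card := by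
      refine (Real.exp_le_exp.mpr h2).trans ?_
      rw [← mul_one (T.card : ℝ), Real.exp_nat_mul]
      exact pow_le_pow_left₀ (Real.exp_pos _).le (Real.exp_one_lt_d9.le.trans (by norm_num)) _
    have h4 : (2 : ℝ) ≤ 2 ^ T.card := le_self_pow₀ (by norm_num) (by omega)
    have h5 : (6 * p) ^ T.card ≤ ((∏ x ∈ T, π (ω' x).1 * ρ (ω' x).2) *
        ∏ x ∈ T, (1 / (256 * 8 ^ ((ω' x).1 : ℕ)) : ℝ)) * ∏ x ∈ T, zz (ω' x).1 (ω' x).2 := by
      rw [← prod_mul_distrib, ← prod_mul_distrib, ← prod_const]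
      apply prod_le_prod (fun _ _ => by positivity)
      intro x hx
      have e1 := hπp _ (hT.2.1 x hx)
      have e2 := hρ (ω' x).2
      have e3 := mul_le_mul e1 e2 (by positivity) (hπ0 _)
      have e4 : (1 : ℝ) ≤ (9 / 8) ^ ((ω' x).2 : ℕ) := one_le_pow₀ (by norm_num)
      refine le_trans ?_ (mul_le_mul_of_nonneg_right (mul_le_mul_of_nonneg_right e3
        (by positivity)) (zz_pos _ _).le)
      have e5 : (32 : ℝ) ^ ((ω' x).1 : ℕ) = 8 ^ ((ω' x).1 : ℕ) * 4 ^ ((ω' x).1 : ℕ) := by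
        rw [← mul_pow]; norm_num
      have e6 : (9 / 8 : ℝ) ^ ((ω' x).2 : ℕ) =
          (3 / 4) ^ ((ω' x).2 : ℕ) * (3 / 2) ^ ((ω' x).2 : ℕ) := by
        rw [← mul_pow]; norm_num
      have e7 : 2 ^ 18 * 32 ^ ((ω' x).1 : ℕ) * p * (1 / 4 * (3 / 4) ^ ((ω' x).2 : ℕ)) *
          (1 / (256 * 8 ^ ((ω' x).1 : ℕ))) * zz (ω' x).1 (ω' x).2 =
          8 * p * (9 / 8) ^ ((ω' x).2 : ℕ) := by
        unfold zz
        rw [e5, e6]
        field_simp
        ring
      rw [e7]
      nlinarith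
    have hc : 0 < ∏ x ∈ T, zz (ω' x).1 (ω' x).2 := prod_pos (fun x _ => zz_pos _ _)
    have h6 : 2 * p ^ T.card * Fintype.card Γ * Real.exp (∑ y ∈ H, ZZ s T.card (kap lam0 y)) ≤
        Fintype.card Γ * (6 * p) ^ T.card := by
      have e1 : (6 * p) ^ T.card = 2 ^ T.card * p ^ T.card * 3 ^ T.card := by
        rw [← mul_pow, ← mul_pow]; congr 1; ring
      rw [e1]
      calc 2 * p ^ T.card * Fintype.card Γ * Real.exp (∑ y ∈ H, ZZ s T.card (kap lam0 y))
          ≤ 2 ^ T.card * p ^ T.card * Fintype.card Γ * 3 ^ T.card := by gcongr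
        _ = _ := by ring
    have h7 := h1.trans (h6.trans (mul_le_mul_of_nonneg_left h5 hΓ))
    rw [← mul_assoc] at h7
    have h8 := le_of_mul_le_mul_right h7 hc
    refine le_trans (le_of_eq ?_) h8
    congr
  · intro ω'
    simp only [univ_unique, sum_singleton]
    apply sum_admC lam (fun g x => h0 _) ω'
    intro T hT
    exact (mem_filter.mp hT).2

theorem spread (H : Finset α) (p : ℝ) (hp0 : 0 ≤ p)
    (hfib : ∀ τ ⊆ H, ∀ T : Finset α,
      ((univ.filter (fun g : Γ => T.image (fun x => g • x) = τ)).card : ℝ) ≤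
        2 * p ^ T.card * Fintype.card Γ) (J : Finset α) :
    ((univ.filter (fun g : Γ => ∀ x ∈ J, g • x ∈ H)).card : ℝ) ≤
      (2 ^ 33 * p) ^ J.card * Fintype.card Γ := by
  classical
  rcases J.eq_empty_or_nonempty with rfl | hJ
  · simp
  set A := univ.filter (fun g : Γ => ∀ x ∈ J, g • x ∈ H) with hA
  rcases A.eq_empty_or_nonempty with hAe | hAne
  · rw [hAe, card_empty, Nat.cast_zero]; positivity
  have hf : J.card ≠ 0 := card_ne_zero.mpr hJ
  have hf0 : (0 : ℝ) < J.card := by exact_mod_cast card_pos.mpr hJ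
  have hA0 : (0 : ℝ) < A.card := by exact_mod_cast card_pos.mpr hAne
  rcases hp0.eq_or_lt with hp | hp
  · exfalso
    obtain ⟨g, hg⟩ := hAne
    have h1 := hfib (J.image (fun x => g • x)) (by
      intro y hy
      obtain ⟨x, hx, rfl⟩ := mem_image.mp hy
      exact (mem_filter.mp hg).2 x hx) J
    rw [← hp, zero_pow hf] at h1
    have h2 : 0 < (univ.filter (fun g' : Γ => J.image (fun x => g' • x) =
        J.image (fun x => g • x))).card := card_pos.mpr ⟨g, by simp⟩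
    have h3 : (0 : ℝ) < (univ.filter (fun g' : Γ => J.image (fun x => g' • x) =
        J.image (fun x => g • x))).card := by exact_mod_cast h2
    linarith
  obtain ⟨s, π, hπ0, hπ1, hπp, hπle⟩ := exists_labels' p hp
  obtain ⟨ρ, hρ1, hρ⟩ := exists_colours (s + Fintype.card α)
  have hρ0 : ∀ δ, 0 ≤ ρ δ := fun δ => le_trans (by positivity) (hρ δ)
  let lam0 : α → ℝ := fun y =>
    (∑ g ∈ A, ∑ z ∈ J, if g • z = y then (1 : ℝ) else 0) / (A.card * J.card)
  have h0 : ∀ x, 0 ≤ lam0 x := by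
    intro x
    apply div_nonneg _ (by positivity)
    apply sum_nonneg; intro g _
    apply sum_nonneg; intro z _
    split_ifs <;> norm_num
  have hsupp : ∀ x, x ∉ H → lam0 x = 0 := by
    intro x hx
    simp only [lam0]
    rw [sum_eq_zero, zero_div]
    intro g hg
    apply sum_eq_zero
    intro z hz
    rw [if_neg]
    rintro rfl
    exact hx ((mem_filter.mp hg).2 z hz)
  have hid : ∀ f : α → ℝ, ∑ x, lam0 x * f x =
      (∑ g ∈ A, ∑ z ∈ J, f (g • z)) / (A.card * J.card) := by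
    intro f
    simp only [lam0, div_mul_eq_mul_div _ ((A.card : ℝ) * J.card)]
    rw [← sum_div]
    congr 1
    simp only [sum_mul]
    rw [sum_comm]
    apply sum_congr rfl
    intro g _
    rw [sum_comm]
    apply sum_congr rfl
    intro z _
    simp
  have hsum : ∑ x, lam0 x ≤ 1 := by
    have h1 := hid (fun _ => 1)
    simp only [mul_one, sum_const, nsmul_eq_mul] at h1
    rw [h1, div_self (by positivity)]
  have hbad := selectorC (Γ := Γ) le_rfl H p hp.le hfib lam0 h0 hsupp hsum π hπ0 hπ1 hπp ρ hρ1 hρ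
  let w : Fin (s + 1) × Fin (s + Fintype.card α + 1) → ℝ := fun k => π k.1 * ρ k.2
  have hw0 : ∀ k, 0 ≤ w k := fun k => mul_nonneg (hπ0 _) (hρ0 _)
  have hw1 : ∑ k, w k = 1 := by
    simp only [w]
    rw [Fintype.sum_prod_type, ← sum_mul_sum, hπ1, hρ1, one_mul]
  let W : (α → Fin (s + 1) × Fin (s + Fintype.card α + 1)) → ℝ := fun ω => ∏ x, w (ω x)
  have hW0 : ∀ l, 0 ≤ W l := fun l => prod_nonneg (fun x _ => hw0 _)
  have hW1 : ∑ ω, W ω = 1 := pi_sum_one w hw1
  let φ : Fin (s + 1) × Fin (s + Fintype.card α + 1) → ℝ := fun k => 4096 / 64 ^ (k.1 : ℕ)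
  have hφ0 : ∀ j, 0 ≤ φ j := fun j => by positivity
  let Y : (α → Fin (s + 1) × Fin (s + Fintype.card α + 1)) → ℝ := fun ω =>
    ∑ g : Γ, ∏ z ∈ J, φ (ω (g • z))
  have hY0 : ∀ l, 0 ≤ Y l := fun l =>
    sum_nonneg (fun g _ => prod_nonneg (fun x _ => hφ0 _))
  have hgood : ∀ ω : α → Fin (s + 1) × Fin (s + Fintype.card α + 1),
      ¬ BadC (fun (g : Γ) x => lam0 (g • x)) (fun x => (ω x).1) → A.card / 2 ≤ Y ω := by
    intro ω hl
    simp only [BadC, not_forall, not_exists, not_and, not_lt] at hl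
    obtain ⟨g0, hl⟩ := hl
    have h1 : ∑ x, lam0 (g0 • x) * ((ω x).1 : ℕ) ≤ 1 := by
      have e1 : ∀ x, lam0 (g0 • x) * (((ω x).1 : ℕ) : ℝ) =
          ∑ j ∈ range s, if j < ((ω x).1 : ℕ) then lam0 (g0 • x) else 0 := by
        intro x
        rw [← sum_filter, sum_const, nsmul_eq_mul, mul_comm]
        congr 2
        have : (range s).filter (fun j => j < ((ω x).1 : ℕ)) = range (ω x).1 := by
          ext j
          have := (ω x).1.2
          simp only [mem_filter, mem_range]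
          omega
        rw [this, card_range]
      simp only [e1]
      rw [sum_comm]
      have e2 : ∀ j ∈ range s, (∑ x, if j < ((ω x).1 : ℕ) then lam0 (g0 • x) else 0) ≤
          (1 / 2) ^ j * (1 / 2) := by
        intro j hj
        rw [← sum_filter]
        have := hl j (mem_range.mp hj)
        rw [← pow_succ, one_div, inv_pow, ← one_div, le_div_iff₀ (by positivity)]
        linarith
      refine (sum_le_sum e2).trans ?_
      rw [← sum_mul]
      have := geom_half_le s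
      linarith
    have h1' : ∑ x, lam0 (g0 • x) * ((ω x).1 : ℕ) =
        ∑ y, lam0 y * ((ω (g0⁻¹ • y)).1 : ℕ) := by
      rw [← Equiv.sum_comp (MulAction.toPerm g0 : α ≃ α)
        (fun y => lam0 y * ((ω (g0⁻¹ • y)).1 : ℕ))]
      simp
    rw [h1', hid (fun y => (((ω (g0⁻¹ • y)).1 : ℕ) : ℝ)), div_le_one (by positivity)] at h1
    have h2 : ∑ g ∈ A, ∏ z ∈ J, φ (ω (g0⁻¹ • g • z)) ≤ Y ω := by
      have e1 : Y ω = ∑ g : Γ, ∏ z ∈ J, φ (ω (g0⁻¹ • g • z)) := by
        simp only [Y, ← mul_smul]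
        rw [← Equiv.sum_comp (Equiv.mulLeft g0⁻¹)]
        simp
      rw [e1]
      exact sum_le_sum_of_subset_of_nonneg (subset_univ _)
        (fun g _ _ => prod_nonneg (fun x _ => hφ0 _))
    have h3 : ∀ g ∈ A, 1 - (∑ z ∈ J, (((ω (g0⁻¹ • g • z)).1 : ℕ) : ℝ)) / (2 * J.card) ≤
        ∏ z ∈ J, φ (ω (g0⁻¹ • g • z)) := by
      intro g _
      by_cases hle : ∑ z ∈ J, ((ω (g0⁻¹ • g • z)).1 : ℕ) ≤ 2 * J.card
      · have e2 : ∏ z ∈ J, φ (ω (g0⁻¹ • g • z)) =
            64 ^ (2 * J.card) / 64 ^ (∑ z ∈ J, ((ω (g0⁻¹ • g • z)).1 : ℕ)) := by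
          simp only [φ]
          rw [prod_div_distrib, prod_const, prod_pow_eq_pow_sum, pow_mul]
          norm_num
        have e3 : (1 : ℝ) ≤ ∏ z ∈ J, φ (ω (g0⁻¹ • g • z)) := by
          rw [e2, one_le_div (by positivity)]
          exact pow_le_pow_right₀ (by norm_num) hle
        have : 0 ≤ (∑ z ∈ J, (((ω (g0⁻¹ • g • z)).1 : ℕ) : ℝ)) / (2 * J.card) := by positivity
        linarith
      · have e3 : (1 : ℝ) ≤ (∑ z ∈ J, (((ω (g0⁻¹ • g • z)).1 : ℕ) : ℝ)) / (2 * J.card) := by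
          rw [one_le_div (by positivity)]
          have : 2 * J.card ≤ ∑ z ∈ J, ((ω (g0⁻¹ • g • z)).1 : ℕ) := by omega
          exact_mod_cast this
        have : 0 ≤ ∏ z ∈ J, φ (ω (g0⁻¹ • g • z)) := prod_nonneg (fun x _ => hφ0 _)
        linarith
    have h4 := sum_le_sum h3
    rw [sum_sub_distrib, ← sum_div, sum_const, nsmul_eq_mul, mul_one] at h4
    have h5 : (∑ g ∈ A, ∑ z ∈ J, (((ω (g0⁻¹ • g • z)).1 : ℕ) : ℝ)) / (2 * J.card) ≤
        A.card / 2 := by
      rw [div_le_iff₀ (by positivity)]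
      linarith
    linarith
  have hEY : ∑ l, W l * Y l ≤ (2 ^ 31 * p) ^ J.card * Fintype.card Γ := by
    simp only [Y, mul_sum]
    rw [sum_comm]
    have hmom : ∑ k, w k * φ k ≤ 2 ^ 31 * p := by
      have e0 : ∑ k, w k * φ k = ∑ j : Fin (s + 1), π j * (4096 / 64 ^ (j : ℕ)) := by
        rw [Fintype.sum_prod_type]
        apply sum_congr rfl
        intro j _
        simp only [w, φ]
        rw [← sum_mul, ← mul_sum, hρ1, mul_one]
      have e1 : ∀ j : Fin (s + 1), π j * (4096 / 64 ^ (j : ℕ)) ≤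
          (1 / 2) ^ (j : ℕ) * (2 ^ 30 * p) := by
        intro j
        refine (mul_le_mul_of_nonneg_right (hπle j) (by positivity)).trans (le_of_eq ?_)
        have h5 : (64 : ℝ) ^ (j : ℕ) = 2 ^ (j : ℕ) * 32 ^ (j : ℕ) := by rw [← mul_pow]; norm_num
        simp only [h5, one_div, inv_pow]
        field_simp
        norm_num
      rw [e0]
      refine (sum_le_sum (fun j _ => e1 j)).trans ?_
      rw [← sum_mul, Fin.sum_univ_eq_sum_range (fun j => ((1 : ℝ) / 2) ^ j)]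
      have := geom_half_le (s + 1)
      nlinarith
    have hmom0 : 0 ≤ ∑ k, w k * φ k := sum_nonneg (fun j _ => mul_nonneg (hw0 j) (hφ0 j))
    have e2 : ∀ g : Γ, ∑ ω : α → Fin (s + 1) × Fin (s + Fintype.card α + 1),
        W ω * ∏ z ∈ J, φ (ω (g • z)) ≤ (2 ^ 31 * p) ^ J.card := by
      intro g
      have e3 := expect_prod_on w hw1 φ (J.image (fun x => g • x))
      simp only [prod_image (fun a _ b _ h => MulAction.injective g h)] at e3
      rw [card_image_of_injective _ (MulAction.injective g)] at e3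
      simp only [W]
      rw [e3]
      exact pow_le_pow_left₀ hmom0 hmom _
    refine (sum_le_sum (fun g _ => e2 g)).trans (le_of_eq ?_)
    rw [sum_const, card_univ, nsmul_eq_mul, mul_comm]
  have hsplit := sum_filter_add_sum_filter_not univ
    (fun ω : α → Fin (s + 1) × Fin (s + Fintype.card α + 1) =>
      BadC (fun (g : Γ) x => lam0 (g • x)) (fun x => (ω x).1)) W
  have hlow : (∑ ω ∈ univ.filter (fun ω : α → Fin (s + 1) × Fin (s + Fintype.card α + 1) =>
      ¬ BadC (fun (g : Γ) x => lam0 (g • x)) (fun x => (ω x).1)), W ω) * (A.card / 2) ≤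
      ∑ l, W l * Y l := by
    rw [sum_mul, sum_filter]
    apply sum_le_sum
    intro l _
    split_ifs with h
    · exact mul_nonneg (hW0 l) (hY0 l)
    · exact mul_le_mul_of_nonneg_left (hgood l h) (hW0 l)
  have hbad' : ∑ ω ∈ univ.filter (fun ω : α → Fin (s + 1) × Fin (s + Fintype.card α + 1) =>
      BadC (fun (g : Γ) x => lam0 (g • x)) (fun x => (ω x).1)), W ω ≤ 1 / 4 := by
    convert hbad
  have h34 : 3 / 4 ≤ ∑ ω ∈ univ.filter (fun ω : α → Fin (s + 1) × Fin (s + Fintype.card α + 1) =>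
      ¬ BadC (fun (g : Γ) x => lam0 (g • x)) (fun x => (ω x).1)), W ω := by linarith
  have h8 : 3 / 4 * (A.card / 2 : ℝ) ≤ (2 ^ 31 * p) ^ J.card * Fintype.card Γ :=
    (mul_le_mul_of_nonneg_right h34 (by positivity)).trans (hlow.trans hEY)
  have h9 : (2 ^ 33 * p) ^ J.card = 4 ^ J.card * (2 ^ 31 * p) ^ J.card := by
    rw [← mul_pow]; congr 1; ring
  have h10 : (4 : ℝ) ≤ 4 ^ J.card := le_self_pow₀ (by norm_num) hf
  have h11 : (0 : ℝ) ≤ (2 ^ 31 * p) ^ J.card * Fintype.card Γ := by positivity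
  rw [h9, mul_assoc]
  nlinarith

end Spread

end Crest.Agent.R55
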