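import Mathlib
import Crest.Prelude.Def_RandomGraph
import Crest.Agent.R55.Spread
import Crest.Agent.R55.KK

/-!
Translation to the binomial random graph.
-/

set_option autoImplicit false

namespace Crest.Agent.R55

open Finset Crest.Agent.R52 Crest.CombinatoricsR.RandomGraph

section Orbit

variable {α Γ : Type} [DecidableEq α] [Group Γ] [Fintype Γ] [MulAction Γ α]

lemma fib_le (τ T : Finset α) (p : ℝ) (hp : 0 ≤ p)
    (hO : 1 / 2 ≤ ((univ.image (fun g : Γ => τ.image (fun x => g • x))).card : ℝ) * p ^ τ.card) :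
    ((univ.filter (fun g : Γ => T.image (fun x => g • x) = τ)).card : ℝ) ≤
      2 * p ^ T.card * Fintype.card Γ := by
  classical
  rcases (univ.filter (fun g : Γ => T.image (fun x => g • x) = τ)).eq_empty_or_nonempty with
    h | ⟨g0, hg0⟩
  · rw [h, card_empty, Nat.cast_zero]; positivity
  have hcard : τ.card = T.card := by
    rw [← (mem_filter.mp hg0).2, card_image_of_injective _ (MulAction.injective g0)]
  set O := univ.image (fun g : Γ => τ.image (fun x => g • x)) with hOdef
  have h1 : ∀ τ' ∈ O, (univ.filter (fun g : Γ => T.image (fun x => g • x) = τ)).card ≤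
      (univ.filter (fun g : Γ => T.image (fun x => g • x) = τ')).card := by
    intro τ' hτ'
    obtain ⟨c, -, rfl⟩ := mem_image.mp hτ'
    apply card_le_card_of_injOn (fun g => c * g)
    · intro g hg
      simp only [coe_filter, mem_univ, true_and, Set.mem_ofPred_eq] at hg ⊢
      rw [← hg, image_image]
      simp only [mul_smul]
      rfl
    · intro a _ b _ h
      exact mul_left_cancel h
  have h2 := card_nsmul_le_sum O _ _ h1
  rw [sum_card_fiberwise_eq_card_filter, smul_eq_mul] at h2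
  have h3 : (O.card : ℝ) * (univ.filter (fun g : Γ => T.image (fun x => g • x) = τ)).card ≤
      Fintype.card Γ := by
    exact_mod_cast h2.trans (card_le_univ _)
  rw [hcard] at hO
  have h4 : (0 : ℝ) ≤ (univ.filter (fun g : Γ => T.image (fun x => g • x) = τ)).card :=
    Nat.cast_nonneg _
  have h5 : 0 ≤ p ^ T.card := by positivity
  nlinarith

end Orbit

/-- vertex permutations act on the edge slots -/
scoped instance act {n : ℕ} : MulAction (Equiv.Perm (Fin n)) (EdgeSlot n) where
  smul g e := ⟨Sym2.map g e.1, by rw [Sym2.isDiag_map g.injective]; exact e.2⟩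
  one_smul e := by
    apply Subtype.ext
    change Sym2.map (1 : Equiv.Perm (Fin n)) e.1 = e.1
    simp
  mul_smul γ δ e := by
    apply Subtype.ext
    change Sym2.map (γ * δ) e.1 = Sym2.map γ (Sym2.map δ e.1)
    rw [Sym2.map_map]; rfl

lemma act_val {n : ℕ} (g : Equiv.Perm (Fin n)) (e : EdgeSlot n) :
    (g • e).1 = Sym2.map g e.1 := rfl

lemma graphOf_adj {n : ℕ} (ω : EdgeSlot n → Bool) (u v : Fin n) :
    (graphOf ω).Adj u v ↔ ∃ h : ¬ (s(u, v) : Sym2 (Fin n)).IsDiag, ω ⟨s(u, v), h⟩ = true := by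
  unfold graphOf
  rw [SimpleGraph.fromEdgeSet_adj]
  constructor
  · exact fun h => h.1
  · rintro ⟨h, h'⟩
    exact ⟨⟨h, h'⟩, by simpa using h⟩

lemma expect_orbit {α : Type} [Fintype α] [DecidableEq α] (p : ℝ) (O : Finset (Finset α)) (m : ℕ)
    (hO : ∀ S ∈ O, S.card = m) :
    ∑ ω : α → Bool, Crest.FinProb.bernoulliWeight p ω *
      ((O.filter (fun S => ∀ z ∈ S, ω z = true)).card : ℝ) = O.card * p ^ m := by
  have h1 : ∀ ω : α → Bool, ((O.filter (fun S => ∀ z ∈ S, ω z = true)).card : ℝ) =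
      ∑ S ∈ O, ∏ z ∈ S, (if ω z = true then (1 : ℝ) else 0) := by
    intro ω
    rw [card_filter, Nat.cast_sum]
    apply sum_congr rfl
    intro S _
    rw [prod_ite_zero]
    simp
  simp only [h1, mul_sum]
  rw [sum_comm, ← nsmul_eq_mul, ← sum_const]
  apply sum_congr rfl
  intro S hS
  have h2 := expect_prod_on (fun b : Bool => if b then p else 1 - p) (by simp)
    (fun b : Bool => if b = true then (1 : ℝ) else 0) S
  rw [← hO S hS]
  simpa [Crest.FinProb.bernoulliWeight] using h2

/-- the subgraph of `H` spanned by a set of edge slots -/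
def subOf {n : ℕ} {W : Type} (H : SimpleGraph W) (ι : W → Fin n) (τ : Finset (EdgeSlot n)) :
    H.Subgraph where
  verts := {a | ∃ b, H.Adj a b ∧ ∃ z ∈ τ, z.1 = s(ι a, ι b)}
  Adj a b := H.Adj a b ∧ ∃ z ∈ τ, z.1 = s(ι a, ι b)
  adj_sub h := h.1
  edge_vert h := ⟨_, h⟩
  symm := ⟨fun a b h => ⟨h.1.symm, by rw [Sym2.eq_swap]; exact h.2⟩⟩

lemma copyCount_le {n : ℕ} {W : Type} [Fintype W] (H : SimpleGraph W) (ι : W → Fin n)
    (hι : Function.Injective ι) (τ : Finset (EdgeSlot n))
    (hτ : ∀ z ∈ τ, ∃ a b, H.Adj a b ∧ z.1 = s(ι a, ι b)) (ω : EdgeSlot n → Bool) :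
    (graphOf ω).copyCount (subOf H ι τ).coe ≤
      ((univ.image (fun g : Equiv.Perm (Fin n) => τ.image (fun x => g • x))).filter
        (fun S => ∀ z ∈ S, ω z = true)).card := by
  classical
  unfold SimpleGraph.copyCount
  apply card_le_card_of_injOn
    (fun G' : (graphOf ω).Subgraph => univ.filter (fun z : EdgeSlot n => z.1 ∈ G'.edgeSet))
  · intro G' hG'
    simp only [coe_filter, mem_univ, true_and, Set.mem_ofPred_eq] at hG'
    obtain ⟨φ⟩ := hG'
    obtain ⟨γ, hγ⟩ := Equiv.Perm.exists_extending_pair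
      (fun a : (subOf H ι τ).verts => ι a.1) (fun a => (φ a).1)
      (hι.comp Subtype.val_injective) (Subtype.val_injective.comp φ.injective)
    simp only [coe_filter, mem_image, mem_univ, true_and, Set.mem_ofPred_eq, mem_filter]
    constructor
    · refine ⟨γ, ?_⟩
      ext z
      simp only [mem_image, mem_filter, mem_univ, true_and]
      constructor
      · rintro ⟨y, hy, rfl⟩
        obtain ⟨a, b, hab, hyab⟩ := hτ y hy
        have hadj : (subOf H ι τ).Adj a b := ⟨hab, y, hy, hyab⟩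
        have h1 : (subOf H ι τ).coe.Adj ⟨a, hadj.fst_mem⟩ ⟨b, hadj.snd_mem⟩ := hadj
        have h2 := φ.map_rel_iff.mpr h1
        rw [act_val, hyab, Sym2.map_mk, hγ ⟨a, hadj.fst_mem⟩, hγ ⟨b, hadj.snd_mem⟩]
        exact h2
      · obtain ⟨z, hz⟩ := z
        induction z using Sym2.ind with
        | h u v =>
          intro huv
          have hadj : G'.Adj u v := huv
          have h1 : G'.coe.Adj ⟨u, hadj.fst_mem⟩ ⟨v, hadj.snd_mem⟩ := hadj
          have h2 := φ.symm.map_rel_iff.mpr h1
          obtain ⟨-, y, hy, hyab⟩ := h2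
          refine ⟨y, hy, Subtype.ext ?_⟩
          rw [act_val, hyab, Sym2.map_mk, hγ, hγ]
          simp
    · rintro ⟨z, hz⟩
      induction z using Sym2.ind with
      | h u v =>
        intro huv
        have hadj : G'.Adj u v := huv
        obtain ⟨_, h⟩ := (graphOf_adj ω u v).mp (G'.adj_sub hadj)
        exact h
  · intro G1 hG1 G2 hG2 h
    simp only [coe_filter, mem_univ, true_and, Set.mem_ofPred_eq] at hG1 hG2
    have hverts : ∀ G' : (graphOf ω).Subgraph, Nonempty ((subOf H ι τ).coe ≃g G'.coe) →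
        ∀ u, u ∈ G'.verts ↔ ∃ v, G'.Adj u v := by
      rintro G' ⟨φ⟩ u
      constructor
      · intro hu
        obtain ⟨b, hb⟩ := (φ.symm ⟨u, hu⟩).2
        have hadj : (subOf H ι τ).Adj (φ.symm ⟨u, hu⟩).1 b := hb
        have h1 : (subOf H ι τ).coe.Adj (φ.symm ⟨u, hu⟩) ⟨b, hadj.snd_mem⟩ := hadj
        have h2 := φ.map_rel_iff.mpr h1
        rw [φ.apply_symm_apply] at h2
        exact ⟨_, h2⟩
      · rintro ⟨v, hv⟩
        exact hv.fst_mem
    have hadj : ∀ u v, G1.Adj u v ↔ G2.Adj u v := by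
      intro u v
      by_cases huv : u = v
      · subst huv
        exact iff_of_false (fun h => h.ne rfl) (fun h => h.ne rfl)
      · have := Finset.ext_iff.mp h ⟨s(u, v), by simpa using huv⟩
        simpa using this
    ext u v
    · rw [hverts G1 hG1, hverts G2 hG2]
      simp only [hadj]
    · exact hadj u v

lemma weight_nonneg {α : Type} [Fintype α] {p : ℝ} (hp0 : 0 ≤ p) (hp1 : p ≤ 1) (ω : α → Bool) :
    0 ≤ Crest.FinProb.bernoulliWeight p ω := by
  apply prod_nonneg
  intro i _
  split_ifs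
  · exact hp0
  · linarith

lemma prob_mono {α : Type} [Fintype α] [DecidableEq α] {p : ℝ} (hp0 : 0 ≤ p) (hp1 : p ≤ 1)
    {E E' : Set (α → Bool)} (h : E ⊆ E') :
    Crest.FinProb.bernoulliProb p E ≤ Crest.FinProb.bernoulliProb p E' := by
  unfold Crest.FinProb.bernoulliProb
  apply sum_le_sum_of_subset_of_nonneg _ (fun ω _ _ => weight_nonneg hp0 hp1 ω)
  intro ω hω
  simp only [mem_filter, mem_univ, true_and] at hω ⊢
  exact h hω

lemma prob_one {α : Type} [Fintype α] [DecidableEq α] {E : Set (α → Bool)}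
    (h : (fun _ => true) ∈ E) : 1 ≤ Crest.FinProb.bernoulliProb 1 E := by
  unfold Crest.FinProb.bernoulliProb
  refine le_trans ?_ (single_le_sum (a := fun _ => true)
    (fun ω _ => weight_nonneg zero_le_one le_rfl ω) ?_)
  · simp [Crest.FinProb.bernoulliWeight]
  · simpa using h

theorem main
    (n : ℕ) (W : Type) [Fintype W] [DecidableEq W] (H : SimpleGraph W)
    [DecidableRel H.Adj] (hW : Fintype.card W ≤ n) (hH : 1 ≤ H.edgeFinset.card)
    (p : ℝ) (hp0 : 0 ≤ p) (hp1 : p ≤ 1)
    (hE : ∀ F : H.Subgraph, (1 : ℝ) / 2 ≤ gnpExpect n p (fun G => (G.copyCount F.coe : ℝ))) :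
    (1 : ℝ) / 2 ≤ gnpProb n
      (min 1 (2048 * Real.exp 50 * p * (1 + Real.logb 2 (H.edgeFinset.card : ℝ))))
      {G | H.IsContained G} := by
  classical
  obtain ⟨ι⟩ : Nonempty (W ↪ Fin n) := Function.Embedding.nonempty_of_card_le (by simpa using hW)
  let H0 : Finset (EdgeSlot n) := univ.filter (fun z => ∃ a b, H.Adj a b ∧ z.1 = s(ι a, ι b))
  have hH0 : H0.card ≤ H.edgeFinset.card := by
    refine le_trans (card_le_card_of_injOn (t := H.edgeFinset.image (Sym2.map ι)) Subtype.val ?_
      Subtype.val_injective.injOn) card_image_le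
    intro z hz
    obtain ⟨a, b, hab, hz⟩ := (mem_filter.mp hz).2
    simp only [coe_image, Set.mem_image, mem_coe, SimpleGraph.mem_edgeFinset]
    exact ⟨s(a, b), hab, hz.symm⟩
  have hfib : ∀ τ ⊆ H0, ∀ T : Finset (EdgeSlot n),
      ((univ.filter (fun g : Equiv.Perm (Fin n) => T.image (fun x => g • x) = τ)).card : ℝ) ≤
        2 * p ^ T.card * Fintype.card (Equiv.Perm (Fin n)) := by
    intro τ hτ T
    apply fib_le τ T p hp0
    refine (hE (subOf H ι τ)).trans ?_
    rw [← expect_orbit p _ τ.card (by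
      intro S hS
      obtain ⟨g, -, rfl⟩ := mem_image.mp hS
      exact card_image_of_injective _ (MulAction.injective g))]
    unfold gnpExpect
    apply sum_le_sum
    intro ω _
    apply mul_le_mul_of_nonneg_left _ (weight_nonneg hp0 hp1 ω)
    exact Nat.cast_le.mpr
      (copyCount_le H ι ι.injective τ (fun z hz => (mem_filter.mp (hτ hz)).2) ω)
  have hsub : {ω : EdgeSlot n → Bool | ∃ g : Equiv.Perm (Fin n),
      ∀ x ∈ univ.filter (fun x => g • x ∈ H0), ω x = true} ⊆
      {ω : EdgeSlot n → Bool | graphOf ω ∈ {G | H.IsContained G}} := by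
    rintro ω ⟨g, hg⟩
    refine ⟨⟨⟨fun w => g⁻¹ (ι w), ?_⟩, g⁻¹.injective.comp ι.injective⟩⟩
    intro a b hab
    have hne : g⁻¹ (ι a) ≠ g⁻¹ (ι b) := fun h => hab.ne (ι.injective (g⁻¹.injective h))
    rw [graphOf_adj]
    refine ⟨by simpa using hne, hg _ ?_⟩
    simp only [H0, mem_filter, mem_univ, true_and]
    refine ⟨a, b, hab, ?_⟩
    rw [act_val, Sym2.map_mk]
    simp
  unfold gnpProb
  have hh1 : (1 : ℝ) ≤ H.edgeFinset.card := by exact_mod_cast hH
  have hlog0 : 0 ≤ Real.logb 2 (H.edgeFinset.card : ℝ) := Real.logb_nonneg (by norm_num) hh1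
  rcases le_total 1 (2048 * Real.exp 50 * p * (1 + Real.logb 2 (H.edgeFinset.card : ℝ))) with
    hq | hq
  · rw [min_eq_left hq]
    refine le_trans (by norm_num) (prob_one (hsub ⟨1, fun _ _ => rfl⟩))
  · rw [min_eq_right hq]
    refine le_trans ?_ (prob_mono (by positivity) hq hsub)
    apply kk (fun g : Equiv.Perm (Fin n) => univ.filter (fun x => g • x ∈ H0)) _ hH ?_
      (2 ^ 33 * p) (by positivity) ?_ _ hq ?_
    · intro g
      refine le_trans (card_le_card_of_injOn (fun x => g • x) ?_ (MulAction.injective g).injOn) hH0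
      intro x hx
      exact (mem_filter.mp hx).2
    · intro T
      refine le_trans (le_of_eq ?_) (spread H0 p hp0 hfib T)
      congr 2
      ext g
      simp [subset_iff]
    · have h1 : ((Nat.log 2 H.edgeFinset.card : ℕ) : ℝ) ≤
          Real.logb 2 (H.edgeFinset.card : ℝ) := by
        rw [Real.le_logb_iff_rpow_le (by norm_num) (by linarith), Real.rpow_natCast]
        exact_mod_cast Nat.pow_log_le_self 2 (by omega)
      have h2 : (2 : ℝ) ^ 26 ≤ Real.exp 50 := by
        have e1 : Real.exp 50 = Real.exp 1 ^ 50 := by rw [← Real.exp_nat_mul]; norm_num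
        have e2 : (2 : ℝ) ≤ Real.exp 1 := by linarith [Real.add_one_le_exp (1 : ℝ)]
        rw [e1]
        exact le_trans (by norm_num) (pow_le_pow_left₀ (by norm_num) e2 50)
      push_cast
      calc 16 * (2 ^ 33 * p) * ((Nat.log 2 H.edgeFinset.card : ℝ) + 1)
          = 2048 * 2 ^ 26 * p * (1 + (Nat.log 2 H.edgeFinset.card : ℝ)) := by ring
        _ ≤ _ := by gcongr

end Crest.Agent.R55
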